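import Crest.Agent.N207.NP.Defs
import Crest.Agent.N207.NP.St

-- ▼ part N207/NP/Wt
section

/-!
# Row 207, block P (helper85): the bounded weight `W` and the barrier on one strip
-/

set_option autoImplicit false
set_option linter.dupNamespace false
set_option linter.unusedSectionVars false
open Set MeasureTheory Filter Topology
open scoped ContDiff

noncomputable section

namespace Crest.Agent.N207.NP

variable {M : Type*} [TopologicalSpace M] [CompactSpace M] [MeasurableSpace M] {H : HC M}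
variable {s0 s1 lo hi del : ℝ} {b b' f f' g g' V W W' : ℝ → M → ℝ}

theorem sum_ind {P : (ℝ → M → ℝ) → (ℝ → M → ℝ) → Prop} (h0 : P (fun _ _ => 0) fun _ _ => 0)
    (hadd : ∀ f f' g g', P f f' → P g g' →
      P (fun t x => f t x + g t x) fun t x => f' t x + g' t x)
    (F F' : ℕ → ℝ → M → ℝ) (n : ℕ) (h : ∀ m < n, P (F m) (F' m)) :
    P (fun t x => ∑ m ∈ Finset.range n, F m t x) fun t x => ∑ m ∈ Finset.range n, F' m t x := by
  induction n with
  | zero => simpa using h0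
  | succ n ih =>
    simp only [Finset.sum_range_succ]
    exact hadd _ _ _ _ (ih fun m hm => h m (by omega)) (h n (by omega))

/-- nonnegative supersolutions with controlled gradient along `b` -/
structure Zc (H : HC M) (s0 s1 lo hi μ : ℝ) (b f f' : ℝ → M → ℝ) : Prop where
  tm : Tm H s0 s1 f f'
  nn : ∀ t ∈ Icc s0 s1, ∀ x, 0 ≤ f t x
  sup : ∀ t ∈ Icc s0 s1, ∀ x, lo ≤ b t x → b t x ≤ hi → 0 ≤ box H f f' t x
  gam : ∀ t ∈ Icc s0 s1, ∀ x, lo ≤ b t x → b t x ≤ hi → |H.gam t (f t) (b t) x| ≤ μ * f t x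

/-- the properties of the weight -/
structure Wg (H : HC M) (s0 s1 lo hi CW : ℝ) (b V W W' : ℝ → M → ℝ) : Prop where
  tm : Tm H s0 s1 W W'
  one : ∀ t ∈ Icc s0 s1, ∀ x, lo ≤ b t x → b t x ≤ hi → 1 ≤ W t x
  le : ∀ t ∈ Icc s0 s1, ∀ x, lo ≤ b t x → b t x ≤ hi → W t x ≤ CW
  gam : ∀ t ∈ Icc s0 s1, ∀ x, lo ≤ b t x → b t x ≤ hi → |H.gam t (W t) (b t) x| ≤ 13 / 50 * W t x
  sup : ∀ t ∈ Icc s0 s1, ∀ x, lo ≤ b t x → b t x ≤ hi → V t x * W t x ≤ box H W W' t x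

/-- admissible brackets -/
structure Gc (H : HC M) (s0 s1 lo hi : ℝ) (b W g g' : ℝ → M → ℝ) : Prop where
  tm : Tm H s0 s1 g g'
  nn : ∀ t ∈ Icc s0 s1, ∀ x, 0 ≤ g t x
  sup : ∀ t ∈ Icc s0 s1, ∀ x, lo ≤ b t x → b t x ≤ hi →
    2 * H.gam t (W t) (g t) x ≤ W t x * box H g g' t x

theorem rpow_mul_le {p z y γ : ℝ} (hp : 0 ≤ p) (hz : 0 < z) (hy : z ≤ y) (hγ : 0 ≤ γ) :
    p ^ γ * y ^ (-γ) ≤ (p / z) ^ γ := by
  have hy0 : 0 < y := hz.trans_le hy
  rw [Real.rpow_neg hy0.le, ← div_eq_mul_inv, ← Real.div_rpow hp hy0.le]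
  exact Real.rpow_le_rpow (div_nonneg hp hy0.le) (div_le_div_of_nonneg_left hp hz hy) hγ

section
variable (A : H.Alg) (N : Nk H s0 s1 lo hi del b b') {μ : ℝ}
include A N

theorem Zc.zero : Zc H s0 s1 lo hi μ b (fun _ _ => 0) fun _ _ => 0 where
  tm := Tm.const A 0
  nn _ _ _ := le_rfl
  sup t ht x _ _ := (box_const A N.st ht x 0).ge
  gam t ht x _ _ := by rw [A.gam_const (N.st.mem ht) 0 (N.tm.fix A ht)]; simp

theorem Zc.add (F : Zc H s0 s1 lo hi μ b f f') (G : Zc H s0 s1 lo hi μ b g g') :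
    Zc H s0 s1 lo hi μ b (fun t x => f t x + g t x) fun t x => f' t x + g' t x where
  tm := F.tm.add A G.tm
  nn t ht x := add_nonneg (F.nn t ht x) (G.nn t ht x)
  sup t ht x l u := by
    rw [box_add A N.st ht x F.tm G.tm]; exact add_nonneg (F.sup t ht x l u) (G.sup t ht x l u)
  gam t ht x l u := by
    rw [A.gam_add t (N.st.mem ht) (F.tm.fix A ht) (G.tm.fix A ht) (N.tm.fix A ht)]
    refine (abs_add_le _ _).trans ?_
    linarith [F.gam t ht x l u, G.gam t ht x l u]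

theorem Zc.blk {k τ γ c : ℝ} (hk : ∀ t ∈ Icc s0 s1, 0 ≤ k * (t - τ)) (hk1 : k ≤ 1 / 4)
    (hd : del ≤ 1 / 50) (hγ : 0 ≤ γ) (hγ1 : γ ≤ 1 / 16) (hc : 0 ≤ c) :
    Zc H s0 s1 lo hi (4 * (1 + del) * γ) b (fun t x => c * pw b k τ (-γ) t x)
      fun t x => c * pw' b b' k τ (-γ) t x where
  tm := (tm_pw A N hk _).cmul A c
  nn t ht x := mul_nonneg hc (Real.rpow_nonneg (sh_pos N hk ht x).le _)
  sup t ht x l u := by
    rw [box_cmul A N.st ht x c (tm_pw A N hk _)]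
    refine mul_nonneg hc (le_trans ?_ (box_pw_ge A N hk hγ ht l u))
    refine mul_nonneg (mul_nonneg hγ (Real.rpow_nonneg (sh_pos N hk ht x).le _)) ?_
    have hd0 : 0 ≤ del := (abs_nonneg _).trans (N.lap t ht x l u)
    nlinarith
  gam t ht x l u := by
    rw [A.gam_cmul (N.st.mem ht) c ((tm_pw A N hk _).fix A ht) (N.tm.fix A ht), abs_mul,
      abs_of_nonneg hc]
    have := abs_gam_pw A N hk (-γ) ht l u
    rw [abs_neg, abs_of_nonneg hγ] at this
    nlinarith [mul_le_mul_of_nonneg_left this hc]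

omit A N in
theorem k0 (s0 s1 : ℝ) : ∀ t ∈ Icc s0 s1, 0 ≤ (0 : ℝ) * (t - 0) := fun _ _ => by simp

omit A N in
theorem sh0 (b : ℝ → M → ℝ) (t : ℝ) (x : M) : sh b 0 0 t x = b t x := by simp [sh]

/-- the weight `2 + Z + (lo/b)^γ - (b/hi)^γ` -/
theorem wg_of {Z Z' : ℝ → M → ℝ} {γ ν CZ : ℝ} (hlo : 0 < lo) (hd : del ≤ 1 / 50) (hγ : 0 ≤ γ)
    (hγ1 : γ ≤ 1 / 16) (hZ : Zc H s0 s1 lo hi (4 * (1 + del) * γ) b Z Z')
    (hZ1 : ∀ t ∈ Icc s0 s1, ∀ x, lo ≤ b t x → b t x ≤ hi → Z t x ≤ CZ) (hν0 : 0 ≤ ν)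
    (hν : ν * (3 + CZ) ≤ 3 * γ)
    (hV : ∀ t ∈ Icc s0 s1, ∀ x, lo ≤ b t x → b t x ≤ hi →
      V t x ≤ ν / b t x * ((lo / b t x) ^ γ + (b t x / hi) ^ γ)) :
    Wg H s0 s1 lo hi (3 + CZ) b V
      (fun t x => 2 + Z t x + lo ^ γ * pw b 0 0 (-γ) t x - hi ^ (-γ) * pw b 0 0 γ t x)
      fun t x => 0 + Z' t x + lo ^ γ * pw' b b' 0 0 (-γ) t x - hi ^ (-γ) * pw' b b' 0 0 γ t x := by
  have k := k0 s0 s1
  have T1 := (Tm.const (s0 := s0) (s1 := s1) A 2).add A hZ.tm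
  have TP := (tm_pw A N k (-γ)).cmul A (lo ^ γ)
  have TQ := (tm_pw A N k γ).cmul A (hi ^ (-γ))
  have eP : ∀ t ∈ Icc s0 s1, ∀ x, lo ^ γ * pw b 0 0 (-γ) t x = (lo / b t x) ^ γ := fun t ht x => by
    have := (N.pos t ht x).le
    rw [pw, sh0, Real.rpow_neg this, Real.div_rpow hlo.le this, div_eq_mul_inv]
  have eQ : ∀ t ∈ Icc s0 s1, ∀ x, b t x ≤ hi →
      hi ^ (-γ) * pw b 0 0 γ t x = (b t x / hi) ^ γ := fun t ht x u => by
    have := N.pos t ht x
    have h2 : 0 ≤ hi := by linarith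
    rw [pw, sh0, Real.rpow_neg h2, Real.div_rpow this.le h2]; ring
  have bP : ∀ t ∈ Icc s0 s1, ∀ x, lo ≤ b t x → 0 ≤ (lo / b t x) ^ γ ∧ (lo / b t x) ^ γ ≤ 1 :=
    fun t ht x l => by
      have := N.pos t ht x
      exact ⟨by positivity, Real.rpow_le_one (by positivity) ((div_le_one this).2 l) hγ⟩
  have bQ : ∀ t ∈ Icc s0 s1, ∀ x, b t x ≤ hi → 0 ≤ (b t x / hi) ^ γ ∧ (b t x / hi) ^ γ ≤ 1 :=
    fun t ht x u => by
      have := N.pos t ht x
      have h2 : 0 < hi := by linarith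
      exact ⟨by positivity, Real.rpow_le_one (by positivity) ((div_le_one h2).2 u) hγ⟩
  refine ⟨(T1.add A TP).sub A TQ, fun t ht x l u => ?_, fun t ht x l u => ?_,
    fun t ht x l u => ?_, fun t ht x l u => ?_⟩
  · rw [eP t ht, eQ t ht x u]
    linarith [(bP t ht x l).1, (bQ t ht x u).2, hZ.nn t ht x]
  · rw [eP t ht, eQ t ht x u]
    linarith [(bP t ht x l).2, (bQ t ht x u).1, hZ1 t ht x l u]
  · have hm := N.st.mem ht
    have hb := N.tm.fix A ht
    have hh : 0 ≤ hi := (N.pos t ht x).le.trans u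
    rw [A.gam_sub hm ((T1.add A TP).fix A ht) (TQ.fix A ht) hb,
      A.gam_add t hm (T1.fix A ht) (TP.fix A ht) hb,
      A.gam_add t hm (A.s0_const 2) (hZ.tm.fix A ht) hb, A.gam_const hm 2 hb,
      A.gam_cmul hm _ ((tm_pw A N k _).fix A ht) hb, A.gam_cmul hm _ ((tm_pw A N k _).fix A ht) hb]
    have h1 := mul_le_mul_of_nonneg_left (abs_gam_pw A N k (-γ) ht l u) (Real.rpow_nonneg hlo.le γ)
    have h2 := mul_le_mul_of_nonneg_left (abs_gam_pw A N k γ ht l u) (Real.rpow_nonneg hh (-γ))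
    rw [← abs_of_nonneg (Real.rpow_nonneg hlo.le γ), ← abs_mul,
      abs_of_nonneg (Real.rpow_nonneg hlo.le γ), abs_neg, abs_of_nonneg hγ] at h1
    rw [← abs_of_nonneg (Real.rpow_nonneg hh (-γ)), ← abs_mul,
      abs_of_nonneg (Real.rpow_nonneg hh (-γ)), abs_of_nonneg hγ] at h2
    have h3 := hZ.gam t ht x l u
    have e1 := eP t ht x
    have e2 := eQ t ht x u
    have hd0 : 0 ≤ del := (abs_nonneg _).trans (N.lap t ht x l u)
    have hμ : 4 * (1 + del) * γ ≤ 13 / 50 := by nlinarith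
    have hμ0 : 0 ≤ 4 * (1 + del) * γ := by positivity
    have b1 := bP t ht x l
    have b2 := bQ t ht x u
    have b3 := hZ.nn t ht x
    rw [abs_le] at h1 h2 h3 ⊢
    rw [e1, e2]
    have h4 : lo ^ γ * (4 * (1 + del) * γ * pw b 0 0 (-γ) t x) ≤ 13 / 50 * (lo / b t x) ^ γ := by
      rw [← e1] at b1 ⊢; nlinarith
    have h5 : hi ^ (-γ) * (4 * (1 + del) * γ * pw b 0 0 γ t x) ≤ 13 / 50 * (b t x / hi) ^ γ := by
      rw [← e2] at b2 ⊢; nlinarith
    have h6 : 4 * (1 + del) * γ * Z t x ≤ 13 / 50 * Z t x := by nlinarith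
    constructor <;> linarith [h1.1, h1.2, h2.1, h2.2, h3.1, h3.2, b2.2]
  · have hb := N.pos t ht x
    have hh : 0 ≤ hi := hb.le.trans u
    have hd0 : 0 ≤ del := (abs_nonneg _).trans (N.lap t ht x l u)
    rw [box_sub A N.st ht x (T1.add A TP) TQ, box_add A N.st ht x T1 TP,
      box_add A N.st ht x (Tm.const A 2) hZ.tm, box_const A N.st ht x,
      box_cmul A N.st ht x _ (tm_pw A N k _), box_cmul A N.st ht x _ (tm_pw A N k _)]
    have h1 := mul_le_mul_of_nonneg_left (box_pw_ge A N k hγ ht l u) (Real.rpow_nonneg hlo.le γ)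
    have e1 := eP t ht x
    have e2 := eQ t ht x u
    have b1 := bP t ht x l
    have b2 := bQ t ht x u
    rw [sh0, Real.rpow_sub_one hb.ne'] at h1
    rw [pw, sh0] at e1 e2
    have h2 : 3 * γ * ((lo / b t x) ^ γ / b t x) ≤
        lo ^ γ * box H (pw b 0 0 (-γ)) (pw' b b' 0 0 (-γ)) t x := by
      refine le_trans ?_ h1
      have : lo ^ γ * (γ * (b t x ^ (-γ) / b t x) * (8 - 2 * del - 0 - 4 * (1 + del) * (γ + 1))) =
          γ * ((lo / b t x) ^ γ / b t x) * (8 - 2 * del - 0 - 4 * (1 + del) * (γ + 1)) := by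
        rw [← e1]; ring
      rw [this]
      have h3 : 0 ≤ γ * ((lo / b t x) ^ γ / b t x) := mul_nonneg hγ (div_nonneg b1.1 hb.le)
      have h4 : 3 ≤ 8 - 2 * del - 0 - 4 * (1 + del) * (γ + 1) := by nlinarith
      nlinarith
    have h3 : hi ^ (-γ) * box H (pw b 0 0 γ) (pw' b b' 0 0 γ) t x ≤
        -(3 * γ * ((b t x / hi) ^ γ / b t x)) := by
      rw [box_pw A N k γ ht x, sh0, Real.rpow_sub_one hb.ne']
      have g1 := abs_le.1 (N.gam t ht x l u)
      have g2 := abs_le.1 (N.lap t ht x l u)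
      have g3 := abs_le.1 (N.dtb t ht x l u)
      have g0 := div_nonneg (A.gam_nonneg t (N.st.mem ht) (N.tm.fix A ht) x) hb.le
      have g4 : H.gam t (b t) (b t) x / b t x ≤ 4 * (1 + del) := by
        rw [div_le_iff₀ hb]; nlinarith
      have g5 : b' t x + 0 - H.lap t (b t) x - (γ - 1) * (H.gam t (b t) (b t) x / b t x) ≤ -3 := by
        nlinarith
      have h3 : 0 ≤ γ * ((b t x / hi) ^ γ / b t x) := mul_nonneg hγ (div_nonneg b2.1 hb.le)
      have : ∀ z, hi ^ (-γ) * (γ * (b t x ^ γ / b t x) * z) =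
          γ * ((b t x / hi) ^ γ / b t x) * z := fun z => by rw [← e2]; ring
      rw [this]
      nlinarith
    have h4 := hZ.sup t ht x l u
    have h5 := hV t ht x l u
    have h6 := hZ1 t ht x l u
    have h7 := hZ.nn t ht x
    simp only [pw, sh0]
    rw [e1, e2]
    set P := (lo / b t x) ^ γ
    set Q := (b t x / hi) ^ γ
    have h8 : V t x * (2 + Z t x + P - Q) ≤ ν / b t x * (P + Q) * (2 + Z t x + P - Q) :=
      mul_le_mul_of_nonneg_right h5 (by linarith [b1.1, b2.2])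
    have h9 : 0 ≤ (P + Q) / b t x := div_nonneg (by linarith [b1.1, b2.1]) hb.le
    have h10 : ν * (2 + Z t x + P - Q) ≤ 3 * γ :=
      le_trans (mul_le_mul_of_nonneg_left (by linarith [b1.2, b2.1]) hν0) hν
    have h11 : ν / b t x * (P + Q) * (2 + Z t x + P - Q) =
        (P + Q) / b t x * (ν * (2 + Z t x + P - Q)) := by ring
    have h12 : (P + Q) / b t x * (3 * γ) = 3 * γ * (P / b t x) + 3 * γ * (Q / b t x) := by ring
    linarith [mul_le_mul_of_nonneg_left h10 h9]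

variable {CW : ℝ} (G : Wg H s0 s1 lo hi CW b V W W')
include G

theorem Gc.const {c : ℝ} (hc : 0 ≤ c) : Gc H s0 s1 lo hi b W (fun _ _ => c) fun _ _ => 0 where
  tm := Tm.const A c
  nn _ _ _ := hc
  sup t ht x _ _ := by
    rw [box_const A N.st ht x c, A.gam_const' (N.st.mem ht) c (G.tm.fix A ht)]; simp

theorem Gc.add (F : Gc H s0 s1 lo hi b W f f') (F2 : Gc H s0 s1 lo hi b W g g') :
    Gc H s0 s1 lo hi b W (fun t x => f t x + g t x) fun t x => f' t x + g' t x where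
  tm := F.tm.add A F2.tm
  nn t ht x := add_nonneg (F.nn t ht x) (F2.nn t ht x)
  sup t ht x l u := by
    rw [box_add A N.st ht x F.tm F2.tm,
      A.gam_add' (N.st.mem ht) (F.tm.fix A ht) (F2.tm.fix A ht) (G.tm.fix A ht)]
    linarith [F.sup t ht x l u, F2.sup t ht x l u]

theorem Gc.blk {k τ c : ℝ} (hk : ∀ t ∈ Icc s0 s1, 0 ≤ k * (t - τ)) (hk1 : k ≤ 1 / 4)
    (hd : del ≤ 1 / 50) (hc : 0 ≤ c) :
    Gc H s0 s1 lo hi b W (fun t x => c * pw b k τ (-(3 / 4)) t x)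
      fun t x => c * pw' b b' k τ (-(3 / 4)) t x where
  tm := (tm_pw A N hk _).cmul A c
  nn t ht x := mul_nonneg hc (Real.rpow_nonneg (sh_pos N hk ht x).le _)
  sup t ht x l u := by
    have hm := N.st.mem ht
    have hW := G.tm.fix A ht
    have hp := (tm_pw A N hk (-(3 / 4))).fix A ht
    rw [box_cmul A N.st ht x c (tm_pw A N hk _), A.gam_cmul' hm c hp hW, A.gam_symm t hm hW hp,
      gam_pw A N hk _ ht hW, A.gam_symm t hm (N.tm.fix A ht) hW]
    have h1 := box_pw_ge A N hk (e := 3 / 4) (by norm_num) ht l u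
    have h2 := abs_le.1 (G.gam t ht x l u)
    have h3 := G.one t ht x l u
    have h4 := Real.rpow_nonneg (sh_pos N hk ht x).le (-(3 / 4) - 1)
    set y := sh b k τ t x ^ (-(3 / 4 : ℝ) - 1)
    have h5 : 3 / 4 * y * (13 / 25) ≤ box H (pw b k τ (-(3 / 4))) (pw' b b' k τ (-(3 / 4))) t x :=
      le_trans (mul_le_mul_of_nonneg_left (by linarith) (by positivity)) h1
    have h6 := mul_le_mul_of_nonneg_left h5 (show 0 ≤ W t x by linarith)
    have h7 := mul_le_mul_of_nonneg_left h2.1 h4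
    have h8 : 2 * (-(3 / 4) * y * H.gam t (W t) (b t) x) ≤
        W t x * box H (pw b k τ (-(3 / 4))) (pw' b b' k τ (-(3 / 4))) t x := by nlinarith
    nlinarith [mul_le_mul_of_nonneg_left h8 hc]

/-- the barrier `W g` is a supersolution -/
theorem Gc.box_ge (F : Gc H s0 s1 lo hi b W g g') {t : ℝ} (ht : t ∈ Icc s0 s1) {x : M}
    (l : lo ≤ b t x) (u : b t x ≤ hi) : V t x * (W t x * g t x) ≤
      box H (fun t x => W t x * g t x) (fun t x => W' t x * g t x + W t x * g' t x) t x := by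
  rw [box_mul A N.st ht x G.tm F.tm]
  nlinarith [F.sup t ht x l u, mul_le_mul_of_nonneg_right (G.sup t ht x l u) (F.nn t ht x)]

/-- comparison on one strip -/
theorem bar_step (F : Gc H s0 s1 lo hi b W g g') (T : Tm H s0 s1 f f') {K : ℝ}
    (hK : ∀ t ∈ Icc s0 s1, ∀ x, lo ≤ b t x → b t x ≤ hi → V t x ≤ K)
    (hf : ∀ t ∈ Icc s0 s1, ∀ x, lo ≤ b t x → b t x ≤ hi → box H f f' t x ≤ V t x * f t x)
    (h0 : ∀ x, lo ≤ b s0 x → b s0 x ≤ hi → f s0 x ≤ W s0 x * g s0 x)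
    (h1 : ∀ t ∈ Icc s0 s1, ∀ x, (b t x = lo ∨ b t x = hi) → f t x ≤ W t x * g t x) :
    ∀ t ∈ Icc s0 s1, ∀ x, lo ≤ b t x → b t x ≤ hi → f t x ≤ W t x * g t x := by
  have := mp A N.st N.sm (T.sub A (G.tm.mul A F.tm)) K
    (fun x l u => sub_nonpos.2 (h0 x l u)) (fun t ht x h => sub_nonpos.2 (h1 t ht x h))
    fun t ht x l u hp => by
      rw [box_sub A N.st ht x T (G.tm.mul A F.tm)]
      have h2 := F.box_ge A N G ht l u
      nlinarith [hf t ht x l u, mul_le_mul_of_nonneg_right (hK t ht x l u) hp.le]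
  exact fun t ht x l u => sub_nonpos.1 (this t ht x l u)

end

end Crest.Agent.N207.NP

end
end

-- ▼ part N207/NP/En
section

/-!
# Row 207, block P (helper85): weighted energy inequality on the neck (Caccioppoli + Hardy)
-/

set_option autoImplicit false
set_option linter.dupNamespace false
set_option linter.unusedSectionVars false
open Set MeasureTheory Filter Topology
open scoped ContDiff

noncomputable section

namespace Crest.Agent.N207.NP

/-! ### a smooth positive part -/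

/-- smooth convex function, `0` on `u ≤ -1`, `u + const` on `u ≥ 0` -/
def Gp (u : ℝ) : ℝ := ∫ v in (-1 : ℝ)..u, Real.smoothTransition (v + 1)

theorem st_cont : Continuous fun v : ℝ => Real.smoothTransition (v + 1) :=
  Real.smoothTransition.continuous.comp (by fun_prop)

theorem Gp_deriv : deriv Gp = fun u => Real.smoothTransition (u + 1) :=
  funext fun u => (st_cont.integral_hasStrictDerivAt (-1) u).hasDerivAt.deriv

theorem Gp_cd : ContDiff ℝ ∞ Gp := by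
  rw [contDiff_infty_iff_deriv, Gp_deriv]
  exact ⟨fun u => (st_cont.integral_hasStrictDerivAt (-1) u).hasDerivAt.differentiableAt,
    Real.smoothTransition.contDiff.comp (by fun_prop)⟩

theorem Gp_dd (u : ℝ) : 0 ≤ deriv (deriv Gp) u := by
  rw [Gp_deriv]
  exact Monotone.deriv_nonneg fun x y h => Real.smoothTransition.monotone (by linarith)

theorem Gp_zero {u : ℝ} (h : u ≤ -1) : Gp u = 0 := by
  rw [Gp, intervalIntegral.integral_congr (g := fun _ => 0), intervalIntegral.integral_zero]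
  intro v hv
  rw [uIcc_of_ge h] at hv
  exact Real.smoothTransition.zero_of_nonpos (by linarith [hv.2])

theorem Gp_nonneg (u : ℝ) : 0 ≤ Gp u := by
  rcases le_total u (-1) with h | h
  · rw [Gp_zero h]
  · exact intervalIntegral.integral_nonneg h fun v _ => Real.smoothTransition.nonneg _

theorem Gp_le {u : ℝ} (h : -1 ≤ u) : Gp u ≤ u + 1 := by
  have := intervalIntegral.integral_mono_on h (st_cont.intervalIntegrable (μ := volume) _ _)
    (intervalIntegrable_const (c := (1 : ℝ))) fun v _ => Real.smoothTransition.le_one _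
  simpa [Gp] using this

theorem Gp_le' {u z : ℝ} (hz : 0 ≤ z) (h : u + 1 ≤ z) : Gp u ≤ z := by
  rcases le_total u (-1) with h1 | h1
  · rwa [Gp_zero h1]
  · exact (Gp_le h1).trans h

theorem le_Gp (u : ℝ) : u ≤ Gp u := by
  rcases le_total u 0 with h | h
  · exact h.trans (Gp_nonneg u)
  · have h1 := intervalIntegral.integral_add_adjacent_intervals
      (st_cont.intervalIntegrable (μ := volume) (-1) 0) (st_cont.intervalIntegrable 0 u)
    have h2 : ∫ v in (0 : ℝ)..u, Real.smoothTransition (v + 1) = u := by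
      rw [intervalIntegral.integral_congr (g := fun _ => 1)]
      · simp
      · intro v hv
        rw [uIcc_of_le h] at hv
        exact Real.smoothTransition.one_of_one_le (by linarith [hv.1])
    have h3 : 0 ≤ ∫ v in (-1 : ℝ)..0, Real.smoothTransition (v + 1) := Gp_nonneg 0
    rw [Gp, ← h1, h2]; linarith

theorem mul_deriv_Gp (u : ℝ) : deriv Gp u * u ≤ Gp u := by
  rw [Gp_deriv]
  have h1 := Real.smoothTransition.nonneg (u + 1)
  have h2 := Real.smoothTransition.le_one (u + 1)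
  rcases le_total u 0 with h | h
  · nlinarith [Gp_nonneg u]
  · nlinarith [le_Gp u]

variable {M : Type*} [TopologicalSpace M] [CompactSpace M] [MeasurableSpace M] {H : HC M}
variable {s0 s1 lo hi del : ℝ} {b b' f f' V W W' X X' : ℝ → M → ℝ}

/-- the smooth positive part of `f - β W` is a subsolution -/
theorem sub_Gp (A : H.Alg) (hs : H.St s0 s1) {CW β : ℝ} (G : Wg H s0 s1 lo hi CW b V W W')
    (T : Tm H s0 s1 f f') (hβ : 0 ≤ β) (hV : ∀ t ∈ Icc s0 s1, ∀ x, 0 ≤ V t x)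
    (hf : ∀ t ∈ Icc s0 s1, ∀ x, box H f f' t x ≤ V t x * f t x) :
    ∃ X', Tm H s0 s1 (fun t x => Gp (f t x - β * W t x)) X' ∧
      ∀ t ∈ Icc s0 s1, ∀ x, lo ≤ b t x → b t x ≤ hi →
        box H (fun t x => Gp (f t x - β * W t x)) X' t x ≤ V t x * Gp (f t x - β * W t x) := by
  have T1 := T.sub A (G.tm.cmul A β)
  refine ⟨_, T1.comp A isOpen_univ Gp_cd.contDiffOn fun _ _ _ => mem_univ _, fun t ht x l u => ?_⟩
  rw [box_comp A hs ht x isOpen_univ Gp_cd.contDiffOn (fun _ _ _ => mem_univ _) T1,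
    box_sub A hs ht x T (G.tm.cmul A β), box_cmul A hs ht x β G.tm]
  have h1 := mul_nonneg (Gp_dd (f t x - β * W t x)) (A.gam_nonneg t (hs.mem ht) (T1.fix A ht) x)
  have h2 : box H f f' t x - β * box H W W' t x ≤ V t x * (f t x - β * W t x) := by
    nlinarith [hf t ht x, mul_le_mul_of_nonneg_left (G.sup t ht x l u) hβ]
  have h3 : 0 ≤ deriv Gp (f t x - β * W t x) := by
    rw [Gp_deriv]; exact Real.smoothTransition.nonneg _
  nlinarith [mul_le_mul_of_nonneg_left h2 h3,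
    mul_le_mul_of_nonneg_left (mul_deriv_Gp (f t x - β * W t x)) (hV t ht x)]

/-- nonnegative subsolutions with a small Hardy potential -/
structure Xc (H : HC M) (s0 s1 lo hi ν : ℝ) (b X X' : ℝ → M → ℝ) : Prop where
  tm : Tm H s0 s1 X X'
  nn : ∀ t ∈ Icc s0 s1, ∀ x, 0 ≤ X t x
  sub : ∀ t ∈ Icc s0 s1, ∀ x, lo ≤ b t x → b t x ≤ hi → box H X X' t x ≤ ν / b t x * X t x
  R : ∀ t ∈ Icc s0 s1, ∀ x, lo ≤ b t x → b t x ≤ hi → |H.R t x| ≤ ν / b t x

/-- the density of the dissipation -/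
def mm (del ν : ℝ) (h : ℝ → ℝ) (y : ℝ) : ℝ :=
  ((2 - 8 * del - 3 * ν) * h y ^ 2 - (8 + 9 * del) * (y * deriv h y) ^ 2) / y

theorem cd_log : ContDiffOn ℝ ∞ Real.log (Ioi 0) :=
  Real.contDiffOn_log.mono fun _ h => ne_of_gt h

theorem en_alg {del ν y e e1 X X1 LX R b1 Lb G gff gfL : ℝ} (hy : 0 < y) (hX : 0 ≤ X)
    (h1 : X1 - LX ≤ ν / y * X) (h2 : |R| ≤ ν / y) (h3 : |G - 4 * y| ≤ 4 * del * y)
    (h4 : |Lb - 8| ≤ del) (h5 : |b1| ≤ del)
    (h6 : 0 ≤ gff + 2 * (e * X / 2) * gfL + (e * X / 2) ^ 2 * (y⁻¹ ^ 2 * G)) :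
    2 * (e * X) * (e1 * b1 * X + e * X1) - R * (e * X) ^ 2 ≤
      -(((2 - 8 * del - 3 * ν) * e ^ 2 - (8 + 9 * del) * (y * e1) ^ 2) / y * X ^ 2) +
        (2 * (e * (e * X) * LX + (gff - X ^ 2 * (e1 ^ 2 * G))) +
          ((e * X) ^ 2 * (y⁻¹ * Lb + -(y ^ 2)⁻¹ * G) + 2 * (e * X) * gfL)) := by
  obtain ⟨z, hz, rfl⟩ : ∃ z, 0 < z ∧ y = z⁻¹ := ⟨y⁻¹, inv_pos.2 hy, (inv_inv y).symm⟩
  have hd : 0 ≤ del := (abs_nonneg _).trans h4
  rw [abs_le] at h2 h3 h4 h5
  simp only [div_inv_eq_mul, inv_inv, inv_pow] at *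
  set p := z⁻¹ * e1 with hp
  have e1' : e1 = z * p := by rw [hp]; field_simp
  set g := z * G with hg
  have g1 : g ≤ 4 + 4 * del := by
    have := mul_le_mul_of_nonneg_left h3.2 hz.le
    have e : z * z⁻¹ = 1 := mul_inv_cancel₀ hz.ne'
    nlinarith
  have eG : G = z⁻¹ * g := by rw [hg]; field_simp
  have a1 : 2 * (e * X) * (e * X1) ≤ 2 * (e * (e * X) * LX) + 2 * ν * (z * (e * X) ^ 2) := by
    nlinarith [mul_le_mul_of_nonneg_left h1 (mul_nonneg (sq_nonneg e) hX)]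
  have a2 : -(R * (e * X) ^ 2) ≤ ν * (z * (e * X) ^ 2) := by
    nlinarith [mul_le_mul_of_nonneg_right h2.1 (sq_nonneg (e * X))]
  have a3 : 2 * (e * X) * (e1 * b1 * X) ≤ del * (z * (e * X) ^ 2) + del * (z * (p * X) ^ 2) := by
    have b1' : 2 * (e * X) * (p * X) * b1 ≤ del * ((e * X) ^ 2 + (p * X) ^ 2) := by
      nlinarith [mul_nonneg (sub_nonneg.2 h5.2) (sq_nonneg (e * X + p * X)),
        mul_nonneg (show 0 ≤ b1 + del by linarith [h5.1]) (sq_nonneg (e * X - p * X))]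
    rw [e1']
    nlinarith [mul_le_mul_of_nonneg_left b1' hz.le]
  have w0 : 0 ≤ z * (e * X) ^ 2 := by positivity
  have w1 : 0 ≤ z * (p * X) ^ 2 := by positivity
  have a4 : X ^ 2 * (e1 ^ 2 * G) = g * (z * (p * X) ^ 2) := by
    rw [e1', eG]; field_simp
  have a5 : (e * X) ^ 2 * (z * Lb + -z ^ 2 * G) = (Lb - g) * (z * (e * X) ^ 2) := by
    rw [hg]; ring
  have a6 : (e * X / 2) ^ 2 * (z ^ 2 * G) = g / 4 * (z * (e * X) ^ 2) := by
    rw [hg]; ring
  have a7 : ((2 - 8 * del - 3 * ν) * e ^ 2 - (8 + 9 * del) * p ^ 2) * z * X ^ 2 =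
      (2 - 8 * del - 3 * ν) * (z * (e * X) ^ 2) - (8 + 9 * del) * (z * (p * X) ^ 2) := by ring
  rw [a6] at h6
  rw [a4, a5, a7]
  nlinarith [mul_le_mul_of_nonneg_right g1 w0, mul_le_mul_of_nonneg_right g1 w1,
    mul_le_mul_of_nonneg_right h4.1 w0]

variable [OpensMeasurableSpace M]

/-- the derivative of the weighted energy -/
theorem en_deriv (A : H.Alg) (I : H.Intg) (N : Nk H s0 s1 lo hi del b b') {ν : ℝ}
    (C : Xc H s0 s1 lo hi ν b X X') {h : ℝ → ℝ} (hh : ContDiffOn ℝ ∞ h (Ioi 0))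
    (hv : ∀ y, 0 < y → (y < lo ∨ hi < y) → h y = 0 ∧ deriv h y = 0) {t : ℝ} (ht : t ∈ Icc s0 s1) :
    ∃ D, HasDerivWithinAt (fun s => ∫ x, (h (b s x) * X s x) ^ 2 ∂H.vol s) D (Icc s0 s1) t ∧
      D ≤ -∫ x, mm del ν h (b t x) * X t x ^ 2 ∂H.vol t := by
  have hm := N.st.mem ht
  have Tη := N.tm.comp A isOpen_Ioi hh N.pos
  have Tf := Tη.mul A C.tm
  have T2 := Tf.mul A Tf
  have hD := I.int_dt N.st T2.sm T2.dt t ht
  simp only [← sq] at hD
  refine ⟨_, hD, ?_⟩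
  have sb := N.tm.fix A ht
  have sη := Tη.fix A ht
  have sX := C.tm.fix A ht
  have sf := Tf.fix A ht
  have sL := A.s0_log sb (N.pos t ht)
  have sd : H.S0 fun x => deriv h (b t x) :=
    A.s0_comp isOpen_Ioi (hh.deriv_of_isOpen isOpen_Ioi (by simp)) (N.pos t ht) sb
  have sm : H.S0 fun x => mm del ν h (b t x) * X t x ^ 2 :=
    A.s0_mul (A.s0_div (A.s0_sub (A.s0_cmul _ (A.s0_pow 2 sη))
      (A.s0_cmul _ (A.s0_pow 2 (A.s0_mul sb sd)))) sb (N.pos t ht)) (A.s0_pow 2 sX)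
  have i1 := I.ibp t hm (A.s0_mul sη sf) sX
  have i2 := I.ibp t hm (A.s0_mul sf sf) sL
  have j1 := A.integrable I hm (A.s0_mul (A.s0_mul sη sf) (A.s0_lap hm sX))
  have j2 := A.integrable I hm (A.s0_gam hm (A.s0_mul sη sf) sX)
  have j3 := A.integrable I hm (A.s0_mul (A.s0_mul sf sf) (A.s0_lap hm sL))
  have j4 := A.integrable I hm (A.s0_gam hm (A.s0_mul sf sf) sL)
  have j5 := A.integrable I hm sm
  have j6 := A.integrable I hm (A.s0_sub (A.sm_s0 (A.sm_of_dt N.st.2.1 T2.sm T2.dt) t ht)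
    (A.s0_mul (A.s0_R hm) (A.s0_pow 2 sf)))
  have key := integral_mono j6 (j5.neg.add (((j1.add j2).const_mul 2).add (j3.add j4))) fun x => by
    simp only [Pi.add_apply, Pi.neg_apply]
    have hb := N.pos t ht x
    have e1 := A.gam_mul t hm sη sf sX x
    have e2 := A.gam_mul t hm sf sf sL x
    by_cases hr : lo ≤ b t x ∧ b t x ≤ hi
    · have e3 := A.gam_mul t hm sη sX sf x
      have e4 := A.gam_mul' hm sη sX sη x
      have e5 := A.gam_comp2 hm isOpen_Ioi hh (N.pos t ht) sb x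
      have e6 := A.gam_comp2 hm isOpen_Ioi cd_log (N.pos t ht) sb x
      have e7 := A.lap_comp t hm isOpen_Ioi cd_log (N.pos t ht) sb x
      rw [Real.deriv_log', deriv_inv] at e7
      rw [Real.deriv_log] at e6
      have e8 := A.gam_symm t hm sX sf x
      have q := A.gam_quad hm sf sL (h (b t x) * X t x / 2) x
      rw [e6] at q
      have r := en_alg (e1 := deriv h (b t x)) hb (C.nn t ht x) (C.sub t ht x hr.1 hr.2)
        (C.R t ht x hr.1 hr.2) (N.gam t ht x hr.1 hr.2) (N.lap t ht x hr.1 hr.2)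
        (N.dtb t ht x hr.1 hr.2) q
      rw [e1, e2, e7, mm]
      rw [e3, e4, e5, e8] at r
      linarith
    · have hz := hv _ hb (by rw [not_and_or, not_le, not_le] at hr; exact hr)
      rw [e1, e2, mm]
      simp [hz.1, hz.2]
  rw [integral_add' j5.neg (((j1.add j2).const_mul 2).add (j3.add j4)),
    integral_add' ((j1.add j2).const_mul 2) (j3.add j4), integral_const_mul, integral_add' j1 j2,
    integral_add' j3 j4, i1, i2] at key
  simp only [Pi.neg_apply, integral_neg] at key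
  linarith

/-- the integrated weighted energy inequality -/
theorem en_int (A : H.Alg) (I : H.Intg) (N : Nk H s0 s1 lo hi del b b') {ν : ℝ}
    (C : Xc H s0 s1 lo hi ν b X X') {h : ℝ → ℝ} (hh : ContDiffOn ℝ ∞ h (Ioi 0))
    (hv : ∀ y, 0 < y → (y < lo ∨ hi < y) → h y = 0 ∧ deriv h y = 0) {P : ℝ → ℝ}
    (hP : IntegrableOn P (Icc s0 s1))
    (hP1 : ∀ t ∈ Icc s0 s1, P t ≤ ∫ x, mm del ν h (b t x) * X t x ^ 2 ∂H.vol t) :
    ∫ t in s0..s1, P t ≤ ∫ x, (h (b s0 x) * X s0 x) ^ 2 ∂H.vol s0 := by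
  choose! D hD1 hD2 using fun t (ht : t ∈ Icc s0 s1) => en_deriv A I N C hh hv ht
  have h1 := intervalIntegral.sub_le_integral_of_hasDeriv_right_of_le N.st.2.1.le
    (fun t ht => (hD1 t ht).continuousWithinAt)
    (fun t ht => ((hD1 t (Ioo_subset_Icc_self ht)).hasDerivAt
      (Icc_mem_nhds ht.1 ht.2)).hasDerivWithinAt) hP.neg
    fun t ht => (hD2 t (Ioo_subset_Icc_self ht)).trans
      (neg_le_neg (hP1 t (Ioo_subset_Icc_self ht)))
  have h2 : 0 ≤ ∫ x, (h (b s1 x) * X s1 x) ^ 2 ∂H.vol s1 := integral_nonneg fun x => sq_nonneg _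
  simp only [Pi.neg_apply, intervalIntegral.integral_neg] at h1
  linarith

end Crest.Agent.N207.NP

end
end

-- ▼ part N207/NP/An
section

/-!
# Row 207, block P (helper85): annulus integrals, the master inequality, the initial term
-/

set_option autoImplicit false
set_option linter.dupNamespace false
set_option linter.unusedSectionVars false
open Set MeasureTheory Filter Topology
open scoped ContDiff

noncomputable section

namespace Crest.Agent.N207.NP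

/-- indicator of `[l,u]` -/
def ind (l u y : ℝ) : ℝ := if l ≤ y ∧ y ≤ u then 1 else 0

theorem ind_one {l u y : ℝ} (h1 : l ≤ y) (h2 : y ≤ u) : ind l u y = 1 := if_pos ⟨h1, h2⟩

theorem ind_lt {l u y : ℝ} (h : y < l) : ind l u y = 0 := if_neg fun a => absurd a.1 (not_le.2 h)

theorem ind_gt {l u y : ℝ} (h : u < y) : ind l u y = 0 := if_neg fun a => absurd a.2 (not_le.2 h)

theorem ind_nn (l u y : ℝ) : 0 ≤ ind l u y := by unfold ind; split_ifs <;> norm_num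

theorem ind_le (l u y : ℝ) : ind l u y ≤ 1 := by unfold ind; split_ifs <;> norm_num

local notation "st" => Real.smoothTransition

theorem st_d0 {s : ℝ} (h : s ≤ 0) : deriv st s = 0 :=
  IsLocalMin.deriv_eq_zero (Eventually.of_forall fun y => by
    rw [Real.smoothTransition.zero_of_nonpos h]; exact Real.smoothTransition.nonneg y)

theorem st_d1 {s : ℝ} (h : 1 ≤ s) : deriv st s = 0 :=
  IsLocalMax.deriv_eq_zero (Eventually.of_forall fun y => by
    rw [Real.smoothTransition.one_of_one_le h]; exact Real.smoothTransition.le_one y)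

theorem st_cd : ContDiff ℝ ∞ st := Real.smoothTransition.contDiff

theorem st_bd : ∃ K, 0 ≤ K ∧ ∀ s ∈ Icc (0 : ℝ) 1, |deriv st s| ≤ K := by
  obtain ⟨K, hK⟩ := (isCompact_Icc (a := (0 : ℝ)) (b := 1)).exists_bound_of_continuousOn
    (st_cd.continuous_deriv (by simp)).continuousOn
  exact ⟨max K 0, le_max_right _ _, fun s hs => (hK s hs).trans (le_max_left _ _)⟩

/-- the cut-off profile -/
def hp (B0 hi : ℝ) (g : ℝ → ℝ) (y : ℝ) : ℝ := st (y / B0 - 1) * st (2 - 2 * y / hi) * g y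

theorem hp_cd {B0 hi : ℝ} {g : ℝ → ℝ} (hg : ContDiffOn ℝ ∞ g (Ioi 0)) :
    ContDiffOn ℝ ∞ (hp B0 hi g) (Ioi 0) :=
  (((st_cd.comp (by fun_prop)).mul (st_cd.comp (by fun_prop))).contDiffOn).mul hg

theorem hp_deriv {B0 hi y : ℝ} {g : ℝ → ℝ} (hg : ContDiffOn ℝ ∞ g (Ioi 0)) (hy : 0 < y) :
    deriv (hp B0 hi g) y = (deriv st (y / B0 - 1) * (1 / B0) * st (2 - 2 * y / hi) +
      st (y / B0 - 1) * (deriv st (2 - 2 * y / hi) * (-(2 / hi)))) * g y +
      st (y / B0 - 1) * st (2 - 2 * y / hi) * deriv g y := by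
  have d := fun s => (st_cd.differentiable (by simp) s).hasDerivAt
  have h1 : HasDerivAt (fun y => y / B0 - 1) (1 / B0) y :=
    ((hasDerivAt_id y).div_const B0).sub_const 1
  have h2 : HasDerivAt (fun y => 2 - 2 * y / hi) (-(2 / hi)) y := by
    simpa using (((hasDerivAt_id y).const_mul 2).div_const hi).const_sub 2
  have h3 := ((hg.contDiffAt (Ioi_mem_nhds hy)).differentiableAt (by simp)).hasDerivAt
  exact ((((d _).comp y h1).mul ((d _).comp y h2)).mul h3).deriv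

theorem hp_out {B0 hi y : ℝ} {g : ℝ → ℝ} (hg : ContDiffOn ℝ ∞ g (Ioi 0)) (hB : 0 < B0)
    (hh : 0 < hi) (hy : 0 < y) (h : y ≤ B0 ∨ hi ≤ y) :
    hp B0 hi g y = 0 ∧ deriv (hp B0 hi g) y = 0 := by
  rw [hp_deriv hg hy, hp]
  rcases h with h | h
  · have : y / B0 - 1 ≤ 0 := by rw [sub_nonpos, div_le_one hB]; exact h
    simp [st_d0 this, Real.smoothTransition.zero_of_nonpos this]
  · have : 2 - 2 * y / hi ≤ 0 := by rw [sub_nonpos, le_div_iff₀ hh]; linarith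
    simp [st_d0 this, Real.smoothTransition.zero_of_nonpos this]

/-- the pointwise lower bound for the dissipation -/
theorem mm_ge : ∃ C0, 0 < C0 ∧ ∀ {B0 hi del ν σ y X : ℝ} {g : ℝ → ℝ},
    ContDiffOn ℝ ∞ g (Ioi 0) → 0 < B0 → 0 < hi → 0 < y → 0 ≤ del → del ≤ 1 / 50 → σ ^ 2 ≤ 1 →
    0 ≤ 2 - 8 * del - 3 * ν → (y * deriv g y) ^ 2 ≤ σ ^ 2 / 4 * g y ^ 2 →
    (y ≤ 2 * B0 → g y ^ 2 ≤ 2) → (hi / 2 ≤ y → y ≤ hi → X = 0) →
    (2 - 8 * del - 3 * ν - (2 + 9 / 4 * del) * σ ^ 2) * (ind (2 * B0) hi y * (g y ^ 2 / y * X ^ 2)) -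
      C0 / B0 * (ind B0 (2 * B0) y * X ^ 2) ≤ mm del ν (hp B0 hi g) y * X ^ 2 := by
  obtain ⟨K, hK, hK1⟩ := st_bd
  refine ⟨9 * (16 * K ^ 2 + 1), by positivity, ?_⟩
  intro B0 hi del ν σ y X g hg hB hh hy hd hd1 hσ hν hder hup hX
  have p2 : 0 ≤ 9 * (16 * K ^ 2 + 1) / B0 * (ind B0 (2 * B0) y * X ^ 2) :=
    mul_nonneg (by positivity) (mul_nonneg (ind_nn _ _ _) (sq_nonneg _))
  by_cases c1 : hi / 2 ≤ y ∧ y ≤ hi
  · simp [hX c1.1 c1.2]
  rcases lt_or_ge hi y with c2 | c2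
  · have := hp_out hg hB hh hy (Or.inr c2.le)
    rw [ind_gt c2, mm, this.1, this.2]; simp only [zero_mul, mul_zero]; norm_num; linarith
  have c3 : y < hi / 2 := by by_contra h; exact c1 ⟨not_lt.1 h, c2⟩
  have e1 : 1 ≤ 2 - 2 * y / hi := by
    rw [le_sub_iff_add_le, ← le_sub_iff_add_le', div_le_iff₀ hh]; linarith
  rcases le_or_gt y B0 with c4 | c4
  · have := hp_out hg hB hh hy (Or.inl c4)
    rw [ind_lt (show y < 2 * B0 by linarith), mm, this.1, this.2]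
    simp only [zero_mul, mul_zero]; norm_num; linarith
  rw [mm, hp_deriv hg hy, hp, st_d1 e1, Real.smoothTransition.one_of_one_le e1]
  rcases lt_or_ge y (2 * B0) with c5 | c5
  · rw [ind_lt c5, ind_one c4.le c5.le]
    have m1 : y / B0 - 1 ∈ Icc (0 : ℝ) 1 := by
      constructor
      · rw [sub_nonneg, le_div_iff₀ hB]; linarith
      · rw [sub_le_iff_le_add, div_le_iff₀ hB]; linarith
    have a1 := hK1 _ m1
    have a2 := Real.smoothTransition.nonneg (y / B0 - 1)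
    have a3 := Real.smoothTransition.le_one (y / B0 - 1)
    have a4 := hup c5.le
    set d := deriv st (y / B0 - 1)
    set θ := st (y / B0 - 1)
    have a5 : d ^ 2 ≤ K ^ 2 := by rw [← sq_abs]; exact pow_le_pow_left₀ (abs_nonneg _) a1 2
    have a6 : (y / B0) ^ 2 ≤ 4 := by nlinarith [m1.1, m1.2]
    have a7 : (y / B0 * d * g y) ^ 2 ≤ 8 * K ^ 2 := by
      rw [mul_pow, mul_pow]
      calc _ ≤ 4 * K ^ 2 * 2 := by gcongr
        _ = _ := by ring
    have a8 : (θ * (y * deriv g y)) ^ 2 ≤ 1 / 2 := by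
      rw [mul_pow]
      have : θ ^ 2 ≤ 1 := by nlinarith
      have h9 : (y * deriv g y) ^ 2 ≤ 1 / 2 := by nlinarith [sq_nonneg σ, sq_nonneg (g y)]
      nlinarith [sq_nonneg (y * deriv g y)]
    have e2 : y * ((d * (1 / B0) * 1 + θ * (0 * -(2 / hi))) * g y + θ * 1 * deriv g y) =
        y / B0 * d * g y + θ * (y * deriv g y) := by ring
    rw [e2]
    have a9 : (y / B0 * d * g y + θ * (y * deriv g y)) ^ 2 ≤ 16 * K ^ 2 + 1 := by
      nlinarith [sq_nonneg (y / B0 * d * g y - θ * (y * deriv g y))]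
    have a10 : -(9 * (16 * K ^ 2 + 1) / B0) ≤ ((2 - 8 * del - 3 * ν) * (θ * 1 * g y) ^ 2 -
        (8 + 9 * del) * (y / B0 * d * g y + θ * (y * deriv g y)) ^ 2) / y := by
      rw [le_div_iff₀ hy]
      have b1 : 9 * (16 * K ^ 2 + 1) ≤ 9 * (16 * K ^ 2 + 1) / B0 * y := by
        rw [div_mul_eq_mul_div, le_div_iff₀ hB]
        exact mul_le_mul_of_nonneg_left c4.le (by positivity)
      nlinarith [mul_nonneg hν (sq_nonneg (θ * 1 * g y)),
        sq_nonneg (y / B0 * d * g y + θ * (y * deriv g y))]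
    nlinarith [mul_le_mul_of_nonneg_right a10 (sq_nonneg X)]
  · have e2 : 1 ≤ y / B0 - 1 := by rw [le_sub_iff_add_le, le_div_iff₀ hB]; linarith
    rw [ind_one c5 c2, st_d1 e2, Real.smoothTransition.one_of_one_le e2]
    have a1 : (2 - 8 * del - 3 * ν - (2 + 9 / 4 * del) * σ ^ 2) * g y ^ 2 ≤
        (2 - 8 * del - 3 * ν) * (1 * 1 * g y) ^ 2 - (8 + 9 * del) *
          (y * ((0 * (1 / B0) * 1 + 1 * (0 * -(2 / hi))) * g y + 1 * 1 * deriv g y)) ^ 2 := by
      have := mul_le_mul_of_nonneg_left hder (show 0 ≤ 8 + 9 * del by linarith)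
      simp only [zero_mul, mul_zero, add_zero, one_mul, zero_add]
      nlinarith
    have a2 := mul_le_mul_of_nonneg_right (div_le_div_of_nonneg_right a1 hy.le) (sq_nonneg X)
    have e3 : ∀ c : ℝ, c * (1 * (g y ^ 2 / y * X ^ 2)) = c * g y ^ 2 / y * X ^ 2 := fun c => by ring
    rw [e3]; linarith

variable {M : Type*} [TopologicalSpace M] [CompactSpace M] [MeasurableSpace M]
  [OpensMeasurableSpace M] {H : HC M}
variable {s0 s1 lo hi del t l u : ℝ} {b b' f g X X' : ℝ → M → ℝ}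

theorem ms_set (hb : Continuous (b t)) (l u : ℝ) : MeasurableSet {x | l ≤ b t x ∧ b t x ≤ u} :=
  (isClosed_Icc.preimage hb).measurableSet

theorem ind_eq (l u : ℝ) (f : M → ℝ) : (fun x => ind l u (b t x) * f x) =
    {x | l ≤ b t x ∧ b t x ≤ u}.indicator f := by
  funext x
  by_cases h : l ≤ b t x ∧ b t x ≤ u
  · rw [ind_one h.1 h.2, indicator_of_mem (by exact h), one_mul]
  · rw [ind, if_neg h, indicator_of_notMem (by exact h), zero_mul]

theorem an_eq (hb : Continuous (b t)) :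
    An H b f l u t = ∫ x, ind l u (b t x) * f t x ∂H.vol t := by
  rw [ind_eq, integral_indicator (ms_set hb l u), An]

theorem ind_int {μ : Measure M} {f : M → ℝ} (hb : Continuous (b t)) (hf : Integrable f μ)
    (l u : ℝ) : Integrable (fun x => ind l u (b t x) * f x) μ := by
  rw [ind_eq]; exact hf.indicator (ms_set hb l u)

theorem an_nn (hf : ∀ x, 0 ≤ f t x) : 0 ≤ An H b f l u t := integral_nonneg hf

theorem an_one (l u : ℝ) : An H b (fun _ _ => 1) l u t =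
    (H.vol t).real {x | l ≤ b t x ∧ b t x ≤ u} := by simp [An]

variable (A : H.Alg) (I : H.Intg)
include A I

theorem an_int (hs : H.St s0 s1) (hb : H.Sm s0 s1 b) (hf : H.Sm s0 s1 f) (l u : ℝ) :
    IntegrableOn (An H b f l u) (Icc s0 s1) := by
  set χ : ℕ → ℝ → ℝ := fun k y => st (k * (y - l) + 1) * st (k * (u - y) + 1) with hχ
  have c1 : ∀ k, ContDiff ℝ ∞ (χ k) := fun k =>
    (st_cd.comp (by fun_prop)).mul (st_cd.comp (by fun_prop))
  have c2 : ∀ k y, |χ k y| ≤ 1 := fun k y => by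
    rw [abs_of_nonneg (mul_nonneg (Real.smoothTransition.nonneg _) (Real.smoothTransition.nonneg _))]
    exact mul_le_one₀ (Real.smoothTransition.le_one _) (Real.smoothTransition.nonneg _)
      (Real.smoothTransition.le_one _)
  have c0 : ∀ z : ℝ, z < 0 → ∀ᶠ k : ℕ in atTop, st (k * z + 1) = 0 := fun z hz => by
    filter_upwards [(tendsto_natCast_atTop_atTop (R := ℝ)).eventually_ge_atTop (1 / -z)] with k hk
    rw [div_le_iff₀ (by linarith)] at hk
    exact Real.smoothTransition.zero_of_nonpos (by linarith)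
  have c3 : ∀ y, Tendsto (fun k => χ k y) atTop (𝓝 (ind l u y)) := fun y => by
    refine tendsto_const_nhds.congr' ?_
    rcases lt_or_ge y l with h1 | h1
    · filter_upwards [c0 (y - l) (by linarith)] with k hk
      simp [hχ, hk, ind_lt h1]
    rcases lt_or_ge u y with h2 | h2
    · filter_upwards [c0 (u - y) (by linarith)] with k hk
      simp [hχ, hk, ind_gt h2]
    refine Eventually.of_forall fun k => ?_
    have k0 : (0 : ℝ) ≤ k := k.cast_nonneg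
    simp only [hχ]
    rw [ind_one h1 h2, Real.smoothTransition.one_of_one_le (by nlinarith),
      Real.smoothTransition.one_of_one_le (by nlinarith), one_mul]
  have hm : AEStronglyMeasurable (An H b f l u) (volume.restrict (Icc s0 s1)) := by
    refine aestronglyMeasurable_of_tendsto_ae atTop
      (f := fun k t => ∫ x, χ k (b t x) * f t x ∂H.vol t)
      (fun k => (A.int_cont I hs (A.sm_mul (A.sm_compU (c1 k) hb) hf)).aestronglyMeasurable
        measurableSet_Icc) ?_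
    filter_upwards [ae_restrict_mem measurableSet_Icc] with t ht
    have sb := A.sm_s0 hb t ht
    have sf := A.sm_s0 hf t ht
    rw [an_eq (A.s0_cont sb)]
    refine tendsto_integral_of_dominated_convergence (fun x => |f t x|)
      (fun k => (A.integrable I (hs.mem ht) (A.s0_mul (A.s0_compU (c1 k) sb) sf)).1)
      (A.integrable I (hs.mem ht) sf).abs (fun k => Eventually.of_forall fun x => ?_)
      (Eventually.of_forall fun x => (c3 _).mul_const _)
    rw [Real.norm_eq_abs, abs_mul]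
    exact mul_le_of_le_one_left (abs_nonneg _) (c2 k _)
  have s2 := A.sm_add (A.sm_pow 2 hf) (A.sm_const 1)
  refine Integrable.mono' ((A.int_cont I hs s2).integrableOn_Icc) hm ?_
  filter_upwards [ae_restrict_mem measurableSet_Icc] with t ht
  have sb := A.sm_s0 hb t ht
  rw [an_eq (A.s0_cont sb)]
  refine norm_integral_le_of_norm_le (A.integrable I (hs.mem ht) (A.sm_s0 s2 t ht))
    (Eventually.of_forall fun x => ?_)
  rw [Real.norm_eq_abs, abs_mul, abs_of_nonneg (ind_nn _ _ _)]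
  have := mul_le_of_le_one_left (abs_nonneg (f t x)) (ind_le l u (b t x))
  nlinarith [sq_abs (f t x), sq_nonneg (|f t x| - 1), abs_nonneg (f t x)]

theorem an_ii (hs : H.St s0 s1) (hb : H.Sm s0 s1 b) (hf : H.Sm s0 s1 f) (l u : ℝ) :
    IntervalIntegrable (An H b f l u) volume s0 s1 :=
  (intervalIntegrable_iff_integrableOn_Icc_of_le hs.2.1.le).2 (an_int A I hs hb hf l u)

/-- monotonicity in the region and in the integrand -/
theorem an_mono (ht : t ∈ Ioo 0 H.T) (hb : H.S0 (b t)) (hf : H.S0 (f t)) (hg : H.S0 (g t))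
    {l' u' : ℝ} (h0 : ∀ x, 0 ≤ g t x)
    (h : ∀ x, l ≤ b t x → b t x ≤ u → f t x ≤ 0 ∨ (l' ≤ b t x ∧ b t x ≤ u' ∧ f t x ≤ g t x)) :
    An H b f l u t ≤ An H b g l' u' t := by
  have cb := A.s0_cont hb
  rw [an_eq cb, an_eq cb]
  refine integral_mono (ind_int cb (A.integrable I ht hf) _ _)
    (ind_int cb (A.integrable I ht hg) _ _) fun x => ?_
  have p := mul_nonneg (ind_nn l' u' (b t x)) (h0 x)
  by_cases hx : l ≤ b t x ∧ b t x ≤ u
  · rcases h x hx.1 hx.2 with h1 | h1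
    · simp only [ind_one hx.1 hx.2]; linarith
    · simp only [ind_one hx.1 hx.2, ind_one h1.1 h1.2.1]; linarith [h1.2.2]
  · simp only [ind, if_neg hx, zero_mul]; exact p

/-- the master inequality -/
theorem master : ∃ C0, 0 < C0 ∧ ∀ {s0 s1 lo hi del ν σ B0 : ℝ} {b b' X X' : ℝ → M → ℝ} {g : ℝ → ℝ},
    Nk H s0 s1 lo hi del b b' → Xc H s0 s1 lo hi ν b X X' → ContDiffOn ℝ ∞ g (Ioi 0) →
    0 < B0 → lo ≤ B0 → 0 < hi → 0 ≤ del → del ≤ 1 / 50 → σ ^ 2 ≤ 1 → 0 ≤ 2 - 8 * del - 3 * ν →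
    (∀ y, 0 < y → (y * deriv g y) ^ 2 ≤ σ ^ 2 / 4 * g y ^ 2) →
    (∀ y, 0 < y → y ≤ 2 * B0 → g y ^ 2 ≤ 2) →
    (∀ t ∈ Icc s0 s1, ∀ x, hi / 2 ≤ b t x → b t x ≤ hi → X t x = 0) →
    (2 - 8 * del - 3 * ν - (2 + 9 / 4 * del) * σ ^ 2) *
        ∫ t in s0..s1, An H b (fun t x => g (b t x) ^ 2 / b t x * X t x ^ 2) (2 * B0) hi t ≤
      An H b (fun t x => g (b t x) ^ 2 * X t x ^ 2) B0 hi s0 +
        C0 / B0 * ∫ t in s0..s1, An H b (fun t x => X t x ^ 2) B0 (2 * B0) t := by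
  obtain ⟨C0, hC, hm⟩ := mm_ge
  refine ⟨C0, hC, ?_⟩
  intro s0 s1 lo hi del ν σ B0 b b' X X' g N C hg hB hlo hh hd hd1 hσ hν hder hup hX
  have sg := A.sm_pow 2 (A.sm_comp isOpen_Ioi hg N.pos N.sm)
  have sX := A.sm_pow 2 C.tm.sm
  have s1' := A.sm_mul (A.sm_div sg N.sm N.pos) sX
  have i1 := an_int A I N.st N.sm s1' (2 * B0) hi
  have i2 := an_int A I N.st N.sm sX B0 (2 * B0)
  have h1 := en_int A I N C (hp_cd hg) (h := hp B0 hi g)
    (fun y hy h => hp_out hg hB hh hy (h.imp (fun a => by linarith) le_of_lt))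
    ((i1.const_mul (2 - 8 * del - 3 * ν - (2 + 9 / 4 * del) * σ ^ 2)).sub (i2.const_mul (C0 / B0)))
    fun t ht => by
      have hm' := N.st.mem ht
      have cb := A.s0_cont (N.tm.fix A ht)
      have j1 := ind_int cb (A.integrable I hm' (A.sm_s0 s1' t ht)) (2 * B0) hi
      have j2 := ind_int cb (A.integrable I hm' (A.sm_s0 sX t ht)) B0 (2 * B0)
      simp only [Pi.sub_apply]
      rw [an_eq cb, an_eq cb, ← integral_const_mul, ← integral_const_mul,
        ← integral_sub (j1.const_mul _) (j2.const_mul _)]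
      have sb := N.tm.fix A ht
      have sd : H.S0 fun x => deriv (hp B0 hi g) (b t x) := A.s0_comp isOpen_Ioi
        ((hp_cd hg).deriv_of_isOpen isOpen_Ioi (by simp)) (N.pos t ht) sb
      have sη := A.s0_comp isOpen_Ioi (hp_cd (B0 := B0) (hi := hi) hg) (N.pos t ht) sb
      have sm : H.S0 fun x => mm del ν (hp B0 hi g) (b t x) * X t x ^ 2 :=
        A.s0_mul (A.s0_div (A.s0_sub (A.s0_cmul _ (A.s0_pow 2 sη))
          (A.s0_cmul _ (A.s0_pow 2 (A.s0_mul sb sd)))) sb (N.pos t ht)) (A.sm_s0 sX t ht)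
      exact integral_mono ((j1.const_mul _).sub (j2.const_mul _)) (A.integrable I hm' sm) fun x =>
        hm hg hB hh (N.pos t ht x) hd hd1 hσ hν (hder _ (N.pos t ht x)) (hup _ (N.pos t ht x))
          (hX t ht x)
  simp only [Pi.sub_apply] at h1
  rw [intervalIntegral.integral_sub ((an_ii A I N.st N.sm s1' _ _).const_mul _)
    ((an_ii A I N.st N.sm sX _ _).const_mul _), intervalIntegral.integral_const_mul,
    intervalIntegral.integral_const_mul] at h1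
  have h0 : s0 ∈ Icc s0 s1 := ⟨le_rfl, N.st.2.1.le⟩
  have h2 : ∫ x, (hp B0 hi g (b s0 x) * X s0 x) ^ 2 ∂H.vol s0 ≤
      An H b (fun t x => g (b t x) ^ 2 * X t x ^ 2) B0 hi s0 := by
    have sb := N.tm.fix A h0
    have cb := A.s0_cont sb
    rw [an_eq cb]
    refine integral_mono (A.integrable I (N.st.mem h0) (A.s0_pow 2 (A.s0_mul
      (A.s0_comp isOpen_Ioi (hp_cd hg) (N.pos _ h0) sb) (C.tm.fix A h0))))
      (ind_int cb (A.integrable I (N.st.mem h0) (A.sm_s0 (A.sm_mul sg sX) _ h0)) _ _) fun x => ?_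
    by_cases hx : B0 ≤ b s0 x ∧ b s0 x ≤ hi
    · simp only [ind_one hx.1 hx.2, hp, mul_pow, one_mul]
      have a1 : st (b s0 x / B0 - 1) ^ 2 ≤ 1 :=
        pow_le_one₀ (Real.smoothTransition.nonneg _) (Real.smoothTransition.le_one _)
      have a2 : st (2 - 2 * b s0 x / hi) ^ 2 ≤ 1 :=
        pow_le_one₀ (Real.smoothTransition.nonneg _) (Real.smoothTransition.le_one _)
      have a3 := mul_le_one₀ a1 (sq_nonneg _) a2
      rw [mul_assoc]
      exact mul_le_of_le_one_left (by positivity) a3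
    · rw [not_and_or, not_le, not_le] at hx
      have := (hp_out hg hB hh (N.pos _ h0 x) (hx.imp le_of_lt le_of_lt)).1
      simp only [this, zero_mul]
      have := mul_nonneg (ind_nn B0 hi (b s0 x))
        (mul_nonneg (sq_nonneg (g (b s0 x))) (sq_nonneg (X s0 x)))
      simpa using this
  linarith

/-- the initial term -/
theorem an_init (ht : t ∈ Ioo 0 H.T) (hb : H.S0 (b t)) (hf : H.S0 (f t)) {B0 D Cv : ℝ}
    (hB : 0 < B0) (hlo : lo ≤ B0) (hD : 0 ≤ D) (hCv : 0 ≤ Cv) (h0 : 0 ≤ hi)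
    (hv : ∀ β ≤ hi, (H.vol t).real {x | lo ≤ b t x ∧ b t x ≤ β} ≤ Cv * β ^ 2)
    (h : ∀ x, B0 ≤ b t x → b t x ≤ hi → f t x ≤ D * (b t x / B0) ^ (-(9 / 4) : ℝ)) :
    An H b f B0 hi t ≤ 512 * Cv * D * B0 ^ 2 := by
  obtain ⟨J, hJ⟩ := pow_unbounded_of_one_lt (hi / B0) (show (1 : ℝ) < 16 by norm_num)
  have cb := A.s0_cont hb
  have j1 : ∀ j : ℕ, Integrable
      (fun x => D / 512 ^ j * (ind lo (min (16 ^ (j + 1) * B0) hi) (b t x) * 1)) (H.vol t) :=
    fun j => (ind_int cb (A.integrable I ht (A.s0_const 1)) _ _).const_mul _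
  rw [an_eq cb]
  refine (integral_mono (ind_int cb (A.integrable I ht hf) _ _)
    (integrable_finsetSum (Finset.range J) fun j _ => j1 j) fun x => ?_).trans ?_
  · have p : ∀ j ∈ Finset.range J,
        0 ≤ D / 512 ^ j * (ind lo (min (16 ^ (j + 1) * B0) hi) (b t x) * 1) := fun j _ =>
      mul_nonneg (by positivity) (mul_nonneg (ind_nn _ _ _) zero_le_one)
    by_cases hx : B0 ≤ b t x ∧ b t x ≤ hi
    · have y1 : 1 ≤ b t x / B0 := (one_le_div hB).2 hx.1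
      obtain ⟨j, k1, k2⟩ := exists_nat_pow_near y1 (show (1 : ℝ) < 16 by norm_num)
      have k3 : j < J := (pow_lt_pow_iff_right₀ (show (1 : ℝ) < 16 by norm_num)).1
        (k1.trans_lt ((div_le_div_of_nonneg_right hx.2 hB.le).trans_lt hJ))
      refine le_trans ?_ (Finset.single_le_sum p (Finset.mem_range.2 k3))
      simp only [ind_one hx.1 hx.2,
        ind_one (hlo.trans hx.1) (le_min ((div_le_iff₀ hB).1 k2.le) hx.2), one_mul, mul_one]
      refine (h x hx.1 hx.2).trans ?_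
      rw [div_eq_mul_inv D]
      refine mul_le_mul_of_nonneg_left ?_ hD
      refine (Real.rpow_le_rpow_of_nonpos (by positivity) k1 (by norm_num)).trans_eq ?_
      rw [← Real.rpow_natCast, ← Real.rpow_mul (by norm_num), mul_comm,
        Real.rpow_mul (by norm_num), Real.rpow_natCast, ← inv_pow]
      congr 1
      rw [show (16 : ℝ) = 2 ^ (4 : ℝ) by norm_num, ← Real.rpow_mul (by norm_num)]
      norm_num
    · simp only [ind, if_neg hx, zero_mul]
      exact Finset.sum_nonneg p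
  · rw [integral_finsetSum _ fun j _ => j1 j]
    refine (Finset.sum_le_sum (g := fun j => 256 * Cv * D * B0 ^ 2 * (1 / 2) ^ j)
      fun j _ => ?_).trans ?_
    · rw [integral_const_mul, ← an_eq (f := fun _ _ => 1) cb, an_one]
      have k1 := hv _ (min_le_right (16 ^ (j + 1) * B0) hi)
      have k2 : min (16 ^ (j + 1) * B0) hi ^ 2 ≤ (16 ^ (j + 1) * B0) ^ 2 :=
        pow_le_pow_left₀ (le_min (by positivity) h0) (min_le_left _ _) 2
      refine (mul_le_mul_of_nonneg_left (k1.trans (mul_le_mul_of_nonneg_left k2 hCv))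
        (by positivity)).trans_eq ?_
      have e : (512 : ℝ) ^ j = 16 ^ j * 16 ^ j * 2 ^ j := by rw [← mul_pow, ← mul_pow]; norm_num
      rw [e, one_div, inv_pow]; field_simp; ring
    · rw [← Finset.mul_sum]
      have := sum_geometric_two_le J
      nlinarith [mul_le_mul_of_nonneg_left this
        (show 0 ≤ 256 * Cv * D * B0 ^ 2 by positivity)]

end Crest.Agent.N207.NP

end
end

-- ▼ part N207/NP/Pig
section

/-!
# Row 207, block P (helper85): tail estimate, growth estimate, pigeonhole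
-/

set_option autoImplicit false
set_option linter.dupNamespace false
set_option linter.unusedSectionVars false
open Set MeasureTheory Filter Topology
open scoped ContDiff

noncomputable section

namespace Crest.Agent.N207.NP

/-- the profile -/
def gp (σ B0 B1 y : ℝ) : ℝ := (y / B0) ^ (σ / 2) * (1 + y / B1) ^ (-((σ + 3 / 4) / 2))

section gp
variable {σ B0 B1 y : ℝ} (hB : 0 < B0) (hB1 : 0 < B1)
include hB hB1

theorem gp_cd : ContDiffOn ℝ ∞ (gp σ B0 B1) (Ioi 0) := by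
  refine ContDiffOn.mul ((cd_rpow _).comp (f := fun y => y / B0) (by fun_prop) fun y hy => ?_)
    ((cd_rpow _).comp (f := fun y => 1 + y / B1) (by fun_prop) fun y hy => ?_)
  · exact div_pos hy hB
  · have : 0 < y := hy
    simp only [mem_Ioi]; positivity

theorem gp_sq (hy : 0 < y) :
    gp σ B0 B1 y ^ 2 = (y / B0) ^ σ * (1 + y / B1) ^ (-(σ + 3 / 4)) := by
  rw [gp, mul_pow, ← Real.rpow_natCast, ← Real.rpow_natCast, ← Real.rpow_mul (by positivity),
    ← Real.rpow_mul (by positivity)]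
  congr 2 <;> push_cast <;> ring

theorem gp_der (h1 : 3 / 4 ≤ σ) (hy : 0 < y) :
    (y * deriv (gp σ B0 B1) y) ^ 2 ≤ σ ^ 2 / 4 * gp σ B0 B1 y ^ 2 := by
  have p1 : 0 < y / B0 := div_pos hy hB
  have p2 : 0 < 1 + y / B1 := by positivity
  have d1 := ((hasDerivAt_id y).div_const B0).rpow_const (p := σ / 2) (Or.inl p1.ne')
  have d2 := (((hasDerivAt_id y).div_const B1).const_add 1).rpow_const
    (p := -((σ + 3 / 4) / 2)) (Or.inl p2.ne')
  have d : deriv (gp σ B0 B1) y = _ := (d1.mul d2).deriv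
  simp only [id] at d
  rw [Real.rpow_sub_one p1.ne', Real.rpow_sub_one p2.ne'] at d
  set z := y / B1 / (1 + y / B1) with hz
  have z0 : 0 ≤ z := by positivity
  have z1 : z ≤ 1 := by rw [hz, div_le_one p2]; linarith
  have e : y * deriv (gp σ B0 B1) y = (σ - (σ + 3 / 4) * z) / 2 * gp σ B0 B1 y := by
    rw [d, gp, hz]; field_simp; ring
  rw [e, mul_pow]
  refine mul_le_mul_of_nonneg_right ?_ (sq_nonneg _)
  have a1 : 0 ≤ (σ + 3 / 4) * z := by positivity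
  have a2 : (σ + 3 / 4) * z ≤ σ + 3 / 4 := mul_le_of_le_one_right (by linarith) z1
  nlinarith

theorem gp_up (h1 : 0 ≤ σ) (h2 : σ ≤ 1) (hy : 0 < y) (h : y ≤ 2 * B0) : gp σ B0 B1 y ^ 2 ≤ 2 := by
  rw [gp_sq hB hB1 hy]
  have a1 : (y / B0) ^ σ ≤ 2 := by
    refine (Real.rpow_le_rpow (by positivity) ((div_le_iff₀ hB).2 h) h1).trans ?_
    simpa using Real.rpow_le_rpow_of_exponent_le (x := 2) (by norm_num) h2
  have a2 : (1 + y / B1) ^ (-(σ + 3 / 4)) ≤ 1 :=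
    Real.rpow_le_one_of_one_le_of_nonpos (by have := div_pos hy hB1; linarith) (by linarith)
  calc _ ≤ 2 * 1 := mul_le_mul a1 a2 (by positivity) (by norm_num)
    _ = 2 := by norm_num

omit hB hB1 in
theorem two_rpow_ge {e : ℝ} (he : e ≤ 2) : (1 / 4 : ℝ) ≤ 2 ^ (-e) := by
  have := Real.rpow_le_rpow_of_exponent_le (x := 2) (by norm_num) (neg_le_neg he)
  rw [Real.rpow_neg (by norm_num)] at this
  norm_num at this ⊢
  exact this

omit hB1 in
theorem gp_lo_a (h : B0 ≤ y) :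
    1 / (4 * B0) * (y / B0) ^ (-(7 / 4) : ℝ) ≤ gp (3 / 4) B0 B0 y ^ 2 / y := by
  have hy : 0 < y := hB.trans_le h
  have p1 : 1 ≤ y / B0 := (one_le_div hB).2 h
  have p0 : 0 < y / B0 := by linarith
  rw [gp_sq hB hB hy]
  have a1 : (2 * (y / B0)) ^ (-(3 / 4 + 3 / 4) : ℝ) ≤ (1 + y / B0) ^ (-(3 / 4 + 3 / 4) : ℝ) :=
    Real.rpow_le_rpow_of_nonpos (by positivity) (by linarith) (by norm_num)
  rw [Real.mul_rpow (by norm_num) p0.le] at a1
  have a2 := two_rpow_ge (e := 3 / 4 + 3 / 4) (by norm_num)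
  have a3 : (y / B0) ^ (-(7 / 4) : ℝ) =
      (y / B0) ^ (3 / 4 : ℝ) * (y / B0) ^ (-(3 / 4 + 3 / 4) : ℝ) / (y / B0) := by
    rw [← Real.rpow_add p0, ← Real.rpow_sub_one p0.ne']; norm_num
  have a4 := Real.rpow_nonneg p0.le (3 / 4 : ℝ)
  have a5 := Real.rpow_nonneg p0.le (-(3 / 4 + 3 / 4) : ℝ)
  rw [a3, le_div_iff₀ hy]
  have e : 1 / (4 * B0) * ((y / B0) ^ (3 / 4 : ℝ) * (y / B0) ^ (-(3 / 4 + 3 / 4) : ℝ) / (y / B0)) * y =
      (y / B0) ^ (3 / 4 : ℝ) * (1 / 4 * (y / B0) ^ (-(3 / 4 + 3 / 4) : ℝ)) := by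
    field_simp
  rw [e]
  exact mul_le_mul_of_nonneg_left ((mul_le_mul_of_nonneg_right a2 a5).trans a1) a4

theorem gp_lo_b (h1 : 0 ≤ σ) (h2 : σ ≤ 1) (hy : 0 < y) (h : y ≤ B1) :
    1 / (4 * B0) * (B1 / B0) ^ (σ - 1) ≤ gp σ B0 B1 y ^ 2 / y := by
  have p0 : 0 < y / B0 := div_pos hy hB
  rw [gp_sq hB hB1 hy]
  have a1 : (2 : ℝ) ^ (-(σ + 3 / 4)) ≤ (1 + y / B1) ^ (-(σ + 3 / 4)) :=
    Real.rpow_le_rpow_of_nonpos (by positivity) (by have := (div_le_one hB1).2 h; linarith)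
      (by linarith)
  have a2 := (two_rpow_ge (e := σ + 3 / 4) (by linarith)).trans a1
  have a3 : (B1 / B0) ^ (σ - 1) ≤ (y / B0) ^ (σ - 1) :=
    Real.rpow_le_rpow_of_nonpos p0 (div_le_div_of_nonneg_right h hB.le) (by linarith)
  rw [Real.rpow_sub_one p0.ne'] at a3
  have a4 := Real.rpow_nonneg p0.le σ
  rw [le_div_iff₀ hy]
  calc _ ≤ 1 / (4 * B0) * ((y / B0) ^ σ / (y / B0)) * y := by gcongr
    _ = (y / B0) ^ σ * (1 / 4) := by field_simp
    _ ≤ _ := mul_le_mul_of_nonneg_left a2 a4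

theorem gp_init (h1 : 0 ≤ σ) (h2 : σ ≤ 1) (h3 : B0 ≤ B1) (hy : 0 < y) {X D : ℝ} (hX : 0 ≤ X)
    (h : X ≤ D * y ^ (-(3 / 4) : ℝ)) : gp σ B0 B1 y ^ 2 * X ^ 2 ≤
      (B1 / B0) ^ 2 * D ^ 2 / (B0 * √B0) * (y / B0) ^ (-(9 / 4) : ℝ) := by
  have p0 : 0 < y / B0 := div_pos hy hB
  have p1 : 1 ≤ B1 / B0 := (one_le_div hB).2 h3
  have a1 : (1 + y / B1) ^ (-(σ + 3 / 4)) ≤ (B1 / B0) ^ 2 * (y / B0) ^ (-(σ + 3 / 4)) := by
    have e : y / B1 = (y / B0) / (B1 / B0) := by field_simp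
    refine (Real.rpow_le_rpow_of_nonpos (div_pos hy hB1) (by linarith) (by linarith)).trans ?_
    rw [e, Real.div_rpow p0.le (by linarith),
      Real.rpow_neg (show 0 ≤ B1 / B0 by linarith) (σ + 3 / 4), div_inv_eq_mul, mul_comm]
    refine mul_le_mul_of_nonneg_right ?_ (Real.rpow_nonneg p0.le _)
    rw [← Real.rpow_natCast]
    exact Real.rpow_le_rpow_of_exponent_le p1 (by push_cast; linarith)
  have a2 : X ^ 2 ≤ D ^ 2 / (B0 * √B0) * (y / B0) ^ (-(3 / 2) : ℝ) := by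
    refine (pow_le_pow_left₀ hX h 2).trans_eq ?_
    rw [mul_pow, ← Real.rpow_natCast (y ^ _), ← Real.rpow_mul hy.le, Real.div_rpow hy.le hB.le,
      Real.rpow_neg hB.le, Real.sqrt_eq_rpow, ← Real.rpow_one_add' hB.le (by norm_num)]
    norm_num
    field_simp
  have a3 : (y / B0) ^ (-(9 / 4) : ℝ) =
      (y / B0) ^ σ * (y / B0) ^ (-(σ + 3 / 4)) * (y / B0) ^ (-(3 / 2) : ℝ) := by
    rw [← Real.rpow_add p0, ← Real.rpow_add p0]; congr 1; ring
  rw [gp_sq hB hB1 hy, a3]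
  calc _ ≤ (y / B0) ^ σ * ((B1 / B0) ^ 2 * (y / B0) ^ (-(σ + 3 / 4))) *
        (D ^ 2 / (B0 * √B0) * (y / B0) ^ (-(3 / 2) : ℝ)) := by gcongr
    _ = _ := by ring

end gp

/-- the pigeonhole principle -/
theorem pigeon {θ q C : ℝ} (hθ : 0 < θ) (hq0 : 0 ≤ q) (hq : q < 1 + θ) :
    ∃ N : ℕ, 1 ≤ N ∧ ∀ (l S : ℕ → ℝ) (D : ℝ), 0 ≤ D → 0 ≤ l 0 → 0 ≤ S 0 →
      (∀ i < N, S i + l (i + 1) ≤ S (i + 1)) → S N ≤ C * q ^ N * l 0 + D →
      ∃ i < N, l (i + 1) ≤ θ * (l 0 + S i) + D := by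
  have p : 0 < 1 + θ := by linarith
  have t1 := tendsto_pow_atTop_nhds_zero_of_lt_one (r := 1 / (1 + θ)) (by positivity)
    ((div_lt_one p).2 (by linarith))
  have t2 := (tendsto_pow_atTop_nhds_zero_of_lt_one (r := q / (1 + θ)) (by positivity)
    ((div_lt_one p).2 hq)).const_mul C
  have t3 := (t1.add t2).eventually_le_const (show (0 : ℝ) + C * 0 < 1 by simp)
  obtain ⟨N, hN, hN1⟩ := (t3.and (eventually_ge_atTop 1)).exists
  refine ⟨N, hN1, fun l S D hD hl hS h1 h2 => ?_⟩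
  by_contra hc
  push Not at hc
  have k : ∀ i, i + 1 ≤ N → (1 + θ) ^ (i + 1) * l 0 + D < l 0 + S (i + 1) := fun i => by
    induction i with
    | zero =>
      intro h
      have a1 := hc 0 h
      have a2 := h1 0 h
      rw [pow_succ, pow_zero]
      nlinarith [mul_nonneg hθ.le hS]
    | succ i ih =>
      intro h
      have a1 := ih (by omega)
      have a2 := hc (i + 1) h
      have a3 := h1 (i + 1) h
      rw [pow_succ (1 + θ) (i + 1)]
      nlinarith [mul_lt_mul_of_pos_left a1 p]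
  obtain ⟨i, rfl⟩ : ∃ i, N = i + 1 := ⟨N - 1, by omega⟩
  have a1 := k i le_rfl
  have a2 : 1 + C * q ^ (i + 1) ≤ (1 + θ) ^ (i + 1) := by
    rw [div_pow, div_pow, one_pow, ← mul_div_assoc, ← add_div, div_le_one (pow_pos p _)] at hN
    exact hN
  nlinarith [mul_le_mul_of_nonneg_right a2 hl]

variable {M : Type*} [TopologicalSpace M] [CompactSpace M] [MeasurableSpace M]
  [OpensMeasurableSpace M] {H : HC M}

/-- `∫ₜ An` -/
def TA (H : HC M) (s0 s1 : ℝ) (b f : ℝ → M → ℝ) (l u : ℝ) : ℝ := ∫ t in s0..s1, An H b f l u t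

/-- the data of the energy estimates on one strip -/
structure Xd (H : HC M) (s0 s1 lo hi del ν D Cv : ℝ) (b b' X X' : ℝ → M → ℝ) : Prop where
  nk : Nk H s0 s1 lo hi del b b'
  xc : Xc H s0 s1 lo hi ν b X X'
  lo_pos : 0 < lo
  hi_pos : 0 < hi
  del_nn : 0 ≤ del
  del_le : del ≤ 1 / 50
  ν_le : ν ≤ 1 / 50
  Cv_nn : 0 ≤ Cv
  van : ∀ t ∈ Icc s0 s1, ∀ x, hi / 2 ≤ b t x → b t x ≤ hi → X t x = 0
  bd : ∀ x, lo ≤ b s0 x → b s0 x ≤ hi → X s0 x ≤ D * b s0 x ^ (-(3 / 4) : ℝ)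
  vol : ∀ β ≤ hi, (H.vol s0).real {x | lo ≤ b s0 x ∧ b s0 x ≤ β} ≤ Cv * β ^ 2

variable (A : H.Alg) (I : H.Intg)
include A I

theorem ta_mono {s0 s1 l u l' u' : ℝ} {b f g : ℝ → M → ℝ} (hs : H.St s0 s1) (hb : H.Sm s0 s1 b)
    (hf : H.Sm s0 s1 f) (hg : H.Sm s0 s1 g) (h0 : ∀ t ∈ Icc s0 s1, ∀ x, 0 ≤ g t x)
    (h : ∀ t ∈ Icc s0 s1, ∀ x, l ≤ b t x → b t x ≤ u →
      f t x ≤ 0 ∨ (l' ≤ b t x ∧ b t x ≤ u' ∧ f t x ≤ g t x)) :
    TA H s0 s1 b f l u ≤ TA H s0 s1 b g l' u' :=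
  intervalIntegral.integral_mono_on hs.2.1.le (an_ii A I hs hb hf _ _) (an_ii A I hs hb hg _ _)
    fun t ht => an_mono A I (hs.mem ht) (A.sm_s0 hb t ht) (A.sm_s0 hf t ht) (A.sm_s0 hg t ht)
      (h0 t ht) (h t ht)

omit A I in
theorem ta_nn {s0 s1 l u : ℝ} {b f : ℝ → M → ℝ} (hs : s0 ≤ s1)
    (h0 : ∀ t ∈ Icc s0 s1, ∀ x, 0 ≤ f t x) : 0 ≤ TA H s0 s1 b f l u :=
  intervalIntegral.integral_nonneg hs fun t ht => an_nn (h0 t ht)

omit A I in
theorem ta_cmul {s0 s1 l u : ℝ} {b f : ℝ → M → ℝ} (c : ℝ) :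
    TA H s0 s1 b (fun t x => c * f t x) l u = c * TA H s0 s1 b f l u := by
  simp only [TA, An, integral_const_mul, intervalIntegral.integral_const_mul]

theorem ta_add {s0 s1 l u l' u' : ℝ} {b f : ℝ → M → ℝ} (hs : H.St s0 s1) (hb : H.Sm s0 s1 b)
    (hf : H.Sm s0 s1 f) (h0 : ∀ t ∈ Icc s0 s1, ∀ x, 0 ≤ f t x) {u'' : ℝ} (h1 : u < l')
    (h2 : u' ≤ u'') (h3 : l ≤ l') (h4 : u ≤ u'') :
    TA H s0 s1 b f l u + TA H s0 s1 b f l' u' ≤ TA H s0 s1 b f l u'' := by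
  rw [TA, TA, ← intervalIntegral.integral_add (an_ii A I hs hb hf _ _) (an_ii A I hs hb hf _ _)]
  refine intervalIntegral.integral_mono_on hs.2.1.le
    ((an_ii A I hs hb hf _ _).add (an_ii A I hs hb hf _ _)) (an_ii A I hs hb hf _ _) fun t ht => ?_
  have cb := A.s0_cont (A.sm_s0 hb t ht)
  have j := fun l u => ind_int cb (A.integrable I (hs.mem ht) (A.sm_s0 hf t ht)) l u
  rw [an_eq cb, an_eq cb, an_eq cb, ← integral_add (j _ _) (j _ _)]
  refine integral_mono ((j _ _).add (j _ _)) (j _ _) fun x => ?_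
  simp only [← add_mul]
  refine mul_le_mul_of_nonneg_right ?_ (h0 t ht x)
  unfold ind
  split_ifs with a1 a2 a3 a4 a5 a6 a7 <;> try norm_num
  · linarith [a1.2, a2.1]
  · linarith [a1.2, a2.1]
  · exact a4 ⟨a1.1, a1.2.trans h4⟩
  · exact a6 ⟨h3.trans a5.1, a5.2.trans h2⟩

/-- the tail estimate (a) and the growth estimate (b) -/
theorem est : ∃ C0, 0 < C0 ∧ ∀ {s0 s1 lo hi del ν D Cv B0 : ℝ} {b b' X X' : ℝ → M → ℝ},
    Xd H s0 s1 lo hi del ν D Cv b b' X X' → lo ≤ B0 →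
    TA H s0 s1 b (fun t x => (b t x / B0) ^ (-(7 / 4) : ℝ) * X t x ^ 2) (2 * B0) hi ≤
      C0 * (TA H s0 s1 b (fun t x => X t x ^ 2) B0 (2 * B0) + Cv * D ^ 2 * (B0 * √B0)) ∧
    ∀ ε B1 : ℝ, 0 < ε → ε ≤ 1 / 4 → 11 * del + 3 * ν ≤ ε → B0 ≤ B1 → B1 ≤ hi →
      TA H s0 s1 b (fun t x => X t x ^ 2) (2 * B0) B1 ≤ C0 / ε * (B1 / B0) ^ ε *
        (TA H s0 s1 b (fun t x => X t x ^ 2) B0 (2 * B0) +
          (B1 / B0) ^ 2 * (Cv * D ^ 2 * (B0 * √B0))) := by
  obtain ⟨C0, hC, hm⟩ := master A I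
  refine ⟨8 * (C0 + 512), by positivity, ?_⟩
  intro s0 s1 lo hi del ν D Cv B0 b b' X X' Z hlo
  have hB : 0 < B0 := Z.lo_pos.trans_le hlo
  have N := Z.nk
  have h0 : s0 ∈ Icc s0 s1 := ⟨le_rfl, N.st.2.1.le⟩
  have sX := A.sm_pow 2 Z.xc.tm.sm
  have l0 : 0 ≤ TA H s0 s1 b (fun t x => X t x ^ 2) B0 (2 * B0) :=
    ta_nn N.st.2.1.le fun _ _ _ => sq_nonneg _
  have d0 : 0 ≤ Cv * D ^ 2 * (B0 * √B0) := by have := Z.Cv_nn; positivity
  have key : ∀ σ B1 κ w u : ℝ, ∀ f : ℝ → M → ℝ, 3 / 4 ≤ σ → σ ≤ 1 → B0 ≤ B1 → 0 ≤ κ → u ≤ hi →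
      κ ≤ 2 - 8 * del - 3 * ν - (2 + 9 / 4 * del) * σ ^ 2 → H.Sm s0 s1 f →
      (∀ t ∈ Icc s0 s1, ∀ x, 2 * B0 ≤ b t x → b t x ≤ u →
        w * f t x ≤ gp σ B0 B1 (b t x) ^ 2 / b t x * X t x ^ 2) →
      κ * (w * TA H s0 s1 b f (2 * B0) u) * B0 ≤ (C0 + 512) *
        (TA H s0 s1 b (fun t x => X t x ^ 2) B0 (2 * B0) +
          (B1 / B0) ^ 2 * (Cv * D ^ 2 * (B0 * √B0))) := by
    intro σ B1 κ w u f h1 h2 h3 hκ hu hκ1 hf hw
    have hB1 : 0 < B1 := hB.trans_le h3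
    have cg := gp_cd (σ := σ) hB hB1
    have sg := A.sm_pow 2 (A.sm_comp isOpen_Ioi cg N.pos N.sm)
    have s1' := A.sm_mul (A.sm_div sg N.sm N.pos) sX
    have m := hm N Z.xc cg hB hlo Z.hi_pos Z.del_nn Z.del_le (σ := σ) (by nlinarith)
      (by linarith [Z.del_le, Z.ν_le]) (fun y hy => gp_der hB hB1 h1 hy)
      (fun y hy => gp_up hB hB1 (by linarith) h2 hy) Z.van
    have a1 := ta_mono A I N.st N.sm (A.sm_cmul w hf) s1' (l := 2 * B0) (u := u) (l' := 2 * B0)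
      (u' := hi) (fun t ht x => by have := N.pos t ht x; positivity)
      fun t ht x p q => Or.inr ⟨p, q.trans hu, hw t ht x p q⟩
    rw [ta_cmul] at a1
    have σ0 : 0 ≤ σ := by linarith
    have a2 := an_init A I (f := fun t x => gp σ B0 B1 (b t x) ^ 2 * X t x ^ 2) (N.st.mem h0)
      (N.tm.fix A h0) (A.sm_s0 (A.sm_mul sg sX) _ h0) hB hlo
      (D := (B1 / B0) ^ 2 * D ^ 2 / (B0 * √B0)) (by positivity) Z.Cv_nn Z.hi_pos.le Z.vol
      fun x p q => gp_init hB hB1 σ0 h2 h3 (N.pos _ h0 x) (Z.xc.nn _ h0 x)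
        (Z.bd x (hlo.trans p) q)
    have a3 : 0 ≤ TA H s0 s1 b (fun t x => gp σ B0 B1 (b t x) ^ 2 / b t x * X t x ^ 2) (2 * B0) hi :=
      ta_nn N.st.2.1.le fun t ht x => by have := N.pos t ht x; positivity
    have a4 := (mul_le_mul_of_nonneg_left a1 hκ).trans
      ((mul_le_mul_of_nonneg_right hκ1 a3).trans (m.trans (add_le_add a2 le_rfl)))
    have a5 := mul_le_mul_of_nonneg_right a4 hB.le
    have sq : √B0 * √B0 = B0 := Real.mul_self_sqrt hB.le
    have sp : 0 < √B0 := Real.sqrt_pos.2 hB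
    have e : (512 * Cv * ((B1 / B0) ^ 2 * D ^ 2 / (B0 * √B0)) * B0 ^ 2 + C0 / B0 *
        ∫ t in s0..s1, An H b (fun t x => X t x ^ 2) B0 (2 * B0) t) * B0 =
        512 * ((B1 / B0) ^ 2 * (Cv * D ^ 2 * (B0 * √B0))) +
          C0 * TA H s0 s1 b (fun t x => X t x ^ 2) B0 (2 * B0) := by
      rw [TA]; set z := B1 / B0; field_simp
      linear_combination (-(512 * Cv * z ^ 2 * D ^ 2 * B0)) * sq
    rw [e] at a5
    nlinarith [mul_nonneg (sq_nonneg (B1 / B0)) d0]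
  constructor
  · have := key (3 / 4) B0 (1 / 2) (1 / (4 * B0)) hi
      (fun t x => (b t x / B0) ^ (-(7 / 4) : ℝ) * X t x ^ 2) le_rfl (by norm_num) le_rfl
      (by norm_num) le_rfl (by linarith [Z.del_le, Z.ν_le])
      (A.sm_mul (A.sm_comp isOpen_Ioi (cd_rpow _) (fun t ht x => div_pos (N.pos t ht x) hB)
        (by simpa [div_eq_inv_mul] using A.sm_cmul B0⁻¹ N.sm)) sX) fun t ht x p q => by
        rw [← mul_assoc]
        exact mul_le_mul_of_nonneg_right (gp_lo_a hB (by linarith)) (sq_nonneg _)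
    rw [div_self hB.ne', one_pow, one_mul] at this
    have e : ∀ z : ℝ, 1 / 2 * (1 / (4 * B0) * z) * B0 = z / 8 := fun z => by field_simp; ring
    rw [e] at this
    linarith
  · intro ε B1 e0 e1 e2 h3 hu
    have hB1 : 0 < B1 := hB.trans_le h3
    have := key (1 - ε) B1 ε (1 / (4 * B0) * (B1 / B0) ^ (1 - ε - 1)) B1
      (fun t x => X t x ^ 2) (by linarith) (by linarith) h3 e0.le hu
      (by nlinarith [Z.del_nn, mul_nonneg Z.del_nn e0.le]) sX fun t ht x p q =>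
        mul_le_mul_of_nonneg_right (gp_lo_b hB hB1 (by linarith) (by linarith) (N.pos t ht x) q)
          (sq_nonneg _)
    have p : 0 < (B1 / B0) ^ ε := Real.rpow_pos_of_pos (div_pos hB1 hB) _
    rw [show 1 - ε - 1 = -ε by ring, Real.rpow_neg (div_pos hB1 hB).le] at this
    have e : ∀ z : ℝ, ε * (1 / (4 * B0) * ((B1 / B0) ^ ε)⁻¹ * z) * B0 =
        z / (4 / ε * (B1 / B0) ^ ε) := fun z => by field_simp
    rw [e, div_le_iff₀ (by positivity)] at this
    refine this.trans ?_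
    have q : 0 ≤ TA H s0 s1 b (fun t x => X t x ^ 2) B0 (2 * B0) +
        (B1 / B0) ^ 2 * (Cv * D ^ 2 * (B0 * √B0)) := by positivity
    set w := TA H s0 s1 b (fun t x => X t x ^ 2) B0 (2 * B0) +
        (B1 / B0) ^ 2 * (Cv * D ^ 2 * (B0 * √B0))
    have : 0 ≤ (C0 + 512) / ε * (B1 / B0) ^ ε * w := by positivity
    calc _ = 4 * ((C0 + 512) / ε * (B1 / B0) ^ ε * w) := by ring
      _ ≤ 8 * ((C0 + 512) / ε * (B1 / B0) ^ ε * w) := by linarith
      _ = _ := by ring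

end Crest.Agent.N207.NP

end
end

-- ▼ part N207/NP/Win
section

/-!
# Row 207, block P (helper85): parabolic windows on the neck, epsilon regularity at the centre
-/

set_option autoImplicit false
set_option linter.dupNamespace false
set_option linter.unusedSectionVars false
open Set MeasureTheory Filter Topology
open scoped ContDiff

noncomputable section

namespace Crest.Agent.N207.NP

local notation "st" => Real.smoothTransition

/-- bump: `1` on `[1/2, 2]`, `0` off `[1/4, 4]` -/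
def bp (s : ℝ) : ℝ := st (4 * s - 1) * st (2 - s / 2)

theorem bp_cd : ContDiff ℝ ∞ bp := (st_cd.comp (by fun_prop)).mul (st_cd.comp (by fun_prop))

theorem bp_nn (s : ℝ) : 0 ≤ bp s :=
  mul_nonneg (Real.smoothTransition.nonneg _) (Real.smoothTransition.nonneg _)

theorem bp_le (s : ℝ) : bp s ≤ 1 := mul_le_one₀ (Real.smoothTransition.le_one _)
  (Real.smoothTransition.nonneg _) (Real.smoothTransition.le_one _)

theorem bp_zero {s : ℝ} (h : s < 1 / 4 ∨ 4 < s) : bp s = 0 := by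
  rcases h with h | h
  · rw [bp, Real.smoothTransition.zero_of_nonpos (by linarith), zero_mul]
  · rw [bp, Real.smoothTransition.zero_of_nonpos (x := 2 - s / 2) (by linarith), mul_zero]

/-- the clamp -/
def cl (y : ℝ) : ℝ := ∫ v in (0 : ℝ)..y, bp v

theorem cl_d (y : ℝ) : HasDerivAt cl (bp y) y :=
  (bp_cd.continuous.integral_hasStrictDerivAt 0 y).hasDerivAt

theorem cl_deriv : deriv cl = bp := funext fun y => (cl_d y).deriv

theorem cl_cd : ContDiff ℝ ∞ cl := by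
  rw [contDiff_infty_iff_deriv, cl_deriv]
  exact ⟨fun u => (cl_d u).differentiableAt, bp_cd⟩

theorem cl_mono : Monotone cl :=
  monotone_of_deriv_nonneg (fun u => (cl_d u).differentiableAt) fun u => cl_deriv ▸ bp_nn u

theorem cl_sub {u v : ℝ} (h1 : 1 / 2 ≤ u) (h2 : u ≤ v) (h3 : v ≤ 2) : cl v - cl u = v - u := by
  rw [cl, cl, intervalIntegral.integral_interval_sub_left
    (bp_cd.continuous.intervalIntegrable _ _) (bp_cd.continuous.intervalIntegrable _ _),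
    intervalIntegral.integral_congr (g := fun _ => 1)]
  · simp
  · intro w hw
    rw [uIcc_of_le h2] at hw
    simp only [bp]
    rw [Real.smoothTransition.one_of_one_le (by linarith [hw.1]),
      Real.smoothTransition.one_of_one_le (by linarith [hw.2]), one_mul]

theorem cl_key {y : ℝ} (h : |cl y - cl 1| < 1 / 2) : 1 / 2 ≤ y ∧ y ≤ 2 := by
  rw [abs_lt] at h
  constructor
  · by_contra hc
    have := cl_mono (not_le.1 hc).le
    linarith [cl_sub (u := 1 / 2) (v := 1) le_rfl (by norm_num) (by norm_num)]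
  · by_contra hc
    have := cl_mono (not_le.1 hc).le
    linarith [cl_sub (u := 1) (v := 2) (by norm_num) (by norm_num) le_rfl]

variable {M : Type*} [TopologicalSpace M] [CompactSpace M] [MeasurableSpace M]
  [OpensMeasurableSpace M] {H : HC M}

section strip
variable {s0 s1 lo hi del β : ℝ} {b b' : ℝ → M → ℝ} (N : Nk H s0 s1 lo hi del b b')
  (hβ : 0 < β) (h1 : lo ≤ β / 4) (h2 : 4 * β ≤ hi)
include N hβ h1 h2

omit N in
theorem bp_reg {y : ℝ} (h : ¬ (lo ≤ y ∧ y ≤ hi ∧ y ≤ 4 * β)) : bp (y / β) = 0 := by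
  refine bp_zero ?_
  rw [div_lt_iff₀ hβ, lt_div_iff₀ hβ]
  by_contra hc
  push Not at hc
  exact h ⟨by linarith [hc.1], by linarith [hc.2], hc.2⟩

theorem cl_space (A : H.Alg) (D : H.Dist) (hd : del ≤ 1 / 50) {t : ℝ} (ht : t ∈ Icc s0 s1)
    (p z : M) : |cl (b t z / β) - cl (b t p / β)| ≤ 5 / √β * H.d t p z := by
  have hm := N.st.mem ht
  have sb := N.tm.fix A ht
  have c1 : ContDiff ℝ ∞ fun y => √β / 5 * cl (y / β) :=
    contDiff_const.mul (cl_cd.comp (by fun_prop))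
  have sp : 0 < √β := Real.sqrt_pos.2 hβ
  have d1 : ∀ y, deriv (fun y => √β / 5 * cl (y / β)) y = √β / 5 * (bp (y / β) * (1 / β)) :=
    fun y => (((cl_d _).comp y ((hasDerivAt_id y).div_const β)).const_mul _).deriv
  have := D.lip t hm (x := p) (y := z) (r := H.d t p z + 1) (A.s0_compU c1 sb) (fun w _ => ?_)
    (by linarith)
  · rw [← mul_sub, abs_mul, abs_of_pos (by positivity : 0 < √β / 5)] at this
    calc _ = 5 / √β * (√β / 5 * |cl (b t z / β) - cl (b t p / β)|) := by field_simp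
      _ ≤ _ := mul_le_mul_of_nonneg_left this (by positivity)
  · rw [A.gam_compU2 hm c1 sb, d1]
    by_cases hw : lo ≤ b t w ∧ b t w ≤ hi ∧ b t w ≤ 4 * β
    · have g := (abs_le.1 (N.gam t ht w hw.1 hw.2.1)).2
      have g0 := A.gam_nonneg t hm sb w
      have hb := N.pos t ht w
      have g1 : H.gam t (b t) (b t) w ≤ 25 * β := by nlinarith [hw.2.2]
      have g2 : bp (b t w / β) ^ 2 ≤ 1 := pow_le_one₀ (bp_nn _) (bp_le _)
      have e : (√β / 5 * (bp (b t w / β) * (1 / β))) ^ 2 = bp (b t w / β) ^ 2 / (25 * β) := by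
        rw [mul_pow, div_pow, Real.sq_sqrt hβ.le]; field_simp; ring
      rw [e, div_mul_eq_mul_div, div_le_one (by positivity)]
      nlinarith
    · rw [bp_reg hβ h1 h2 hw]; simp

theorem cl_time (hd : 0 ≤ del) {s t : ℝ} (hs : s ∈ Icc s0 s1) (ht : t ∈ Icc s0 s1) (hst : s ≤ t)
    (z : M) : |cl (b t z / β) - cl (b s z / β)| ≤ del / β * (t - s) := by
  have := (convex_Icc s0 s1).norm_image_sub_le_of_norm_hasDerivWithin_le
    (f := fun s => cl (b s z / β)) (f' := fun s => bp (b s z / β) * (b' s z / β)) (C := del / β)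
    (fun s hs => (cl_d _).comp_hasDerivWithinAt s ((N.dt s hs z).div_const β)) (fun s hs => ?_) hs ht
  · rwa [Real.norm_eq_abs, Real.norm_eq_abs, abs_of_nonneg (sub_nonneg.2 hst)] at this
  · by_cases hw : lo ≤ b s z ∧ b s z ≤ hi ∧ b s z ≤ 4 * β
    · rw [Real.norm_eq_abs, abs_mul, abs_of_nonneg (bp_nn _), abs_div, abs_of_pos hβ]
      exact (mul_le_of_le_one_left (by positivity) (bp_le _)).trans
        (div_le_div_of_nonneg_right (N.dtb s hs z hw.1 hw.2.1) hβ.le)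
    · rw [bp_reg hβ h1 h2 hw]; simp only [zero_mul, norm_zero]; positivity

end strip

theorem exists_strip {tt : ℕ → ℝ} {σ : ℝ} (h0 : tt 0 ≤ σ) (n : ℕ) (h : σ ≤ tt (n + 1)) :
    ∃ m ≤ n, σ ∈ Icc (tt m) (tt (m + 1)) := by
  induction n with
  | zero => exact ⟨0, le_rfl, h0, h⟩
  | succ n ih =>
    rcases le_total σ (tt (n + 1)) with h1 | h1
    · obtain ⟨m, hm, h2⟩ := ih h1
      exact ⟨m, by omega, h2⟩
    · exact ⟨n + 1, le_rfl, h1, h⟩

/-- epsilon regularity at the centre -/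
def ER (H : HC M) (t0 ε0 cE r0 : ℝ) (Ck : ℕ → ℝ) : Prop :=
  ∀ k, 0 < Ck k ∧ ∀ t ∈ Ico t0 H.T, ∀ x, ∀ r, 0 < r → r ≤ r0 → H.en t x r ≤ ε0 →
    H.Q k t x ≤ Ck k / r ^ (2 + 2 * k) ∧ H.Q k t x ≤ Ck k / r ^ (6 + 2 * k) *
      ∫ s in (t - cE * r ^ 2)..t, ∫ z in H.B t x r, H.Q 0 s z ∂H.vol s

theorem exists_er (D : H.Dist) (E : H.EReg) {t0 : ℝ} (h : 0 < t0) :
    ∃ ε0 cE r0 Ck, 0 < ε0 ∧ 0 < cE ∧ 0 < r0 ∧ ER H t0 ε0 cE r0 Ck := by
  obtain ⟨ε0, c, r0, h1, h2, h3, -, h4⟩ := E t0 h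
  choose Ck h5 h6 using h4
  refine ⟨ε0, c, r0, Ck, h1, h2, h3, fun k => ⟨h5 k, fun t ht x r hr hr1 he => ?_⟩⟩
  have hm : t ∈ Ioo 0 H.T := ⟨h.trans_le ht.1, ht.2⟩
  have := h6 k t ht x r hr hr1 he x (by show H.d t x x < r / 2; rw [D.self t hm x]; linarith)
  exact ⟨(this.1 t hm (by simp only [sub_self, abs_zero]; positivity)).2, this.2⟩

namespace Rd

variable {a tt : ℕ → ℝ} {hi del K c Cv : ℝ} {b : ℝ → M → ℝ} {b' : ℕ → ℝ → M → ℝ}
  (S : Rd H a tt hi del K c Cv b b')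
include S

theorem smono : StrictMono tt := strictMono_nat_of_lt_succ fun n => (S.nk n).st.2.1

theorem Cv_nn : 0 ≤ Cv := by
  have h := le_trans measureReal_nonneg (S.vol 0 _ ⟨le_rfl, (S.nk 0).st.2.1.le⟩ hi le_rfl)
  exact nonneg_of_mul_nonneg_left h (pow_pos S.hi_pos 2)

theorem ap (hK : 4 ≤ K) (n : ℕ) : 0 < a n := by
  rw [S.a_eq n]; exact div_pos S.a_pos (pow_pos (by linarith) n)

theorem a_succ (hK : 4 ≤ K) (n : ℕ) : a n = K * a (n + 1) := by
  rw [S.a_eq n, S.a_eq (n + 1), pow_succ]; field_simp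

theorem a_anti (hK : 4 ≤ K) : Antitone a := antitone_nat_of_succ_le fun n => by
  have := S.ap hK (n + 1); rw [S.a_succ hK n]; nlinarith

theorem sqN_le {n : ℕ} (hd : 0 ≤ del) {t : ℝ} (ht : t ∈ Icc (tt n) (tt (n + 1))) {x : M}
    (l : a n ^ 2 ≤ b t x) (u : b t x ≤ hi) : √(H.N 0 t x) ≤ 2 * del / b t x := by
  have hb := (S.nk n).pos t ht x
  have h1 : (a n ^ 2 / b t x) ^ (1 / 16 : ℝ) ≤ 1 :=
    Real.rpow_le_one (by positivity) ((div_le_one hb).2 l) (by norm_num)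
  have h2 : (b t x / hi) ^ (1 / 16 : ℝ) ≤ 1 :=
    Real.rpow_le_one (div_pos hb S.hi_pos).le ((div_le_one S.hi_pos).2 u) (by norm_num)
  refine (S.dec n t ht x l u).trans ?_
  calc _ ≤ del / b t x * 2 := mul_le_mul_of_nonneg_left (by linarith) (div_nonneg hd hb.le)
    _ = _ := by ring

theorem cl_times (hd : 0 ≤ del) {β : ℝ} (hβ : 0 < β) (h2 : 4 * β ≤ hi) {m n : ℕ} (hmn : m ≤ n)
    (h1 : ∀ k, m ≤ k → k ≤ n → a k ^ 2 ≤ β / 4) {σ : ℝ} (hσ : σ ∈ Icc (tt m) (tt (m + 1))) (z : M) :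
    ∀ s ∈ Icc (tt n) (tt (n + 1)), σ ≤ s →
      |cl (b s z / β) - cl (b σ z / β)| ≤ del / β * (s - σ) := by
  induction n, hmn using Nat.le_induction with
  | base => exact fun s hs h => cl_time (S.nk m) hβ (h1 m le_rfl le_rfl) h2 hd hσ hs h z
  | succ n hmn ih =>
    intro s hs _
    have a1 := ih (fun k p q => h1 k p (by omega)) (tt (n + 1)) ⟨(S.nk n).st.2.1.le, le_rfl⟩
      (hσ.2.trans (S.smono.monotone (by omega)))
    have a2 := cl_time (S.nk (n + 1)) hβ (h1 _ (by omega) le_rfl) h2 hd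
      ⟨le_rfl, (S.nk (n + 1)).st.2.1.le⟩ hs hs.1 z
    have := abs_sub_le (cl (b s z / β)) (cl (b (tt (n + 1)) z / β)) (cl (b σ z / β))
    linarith

/-- the parabolic window stays in the double annulus -/
theorem win (A : H.Alg) (D : H.Dist) (hd : 0 ≤ del) (hd1 : del ≤ 1 / 50) {m n : ℕ} (hmn : m ≤ n)
    {s σ : ℝ} (hs : s ∈ Icc (tt n) (tt (n + 1))) (hσ : σ ∈ Icc (tt m) (tt (m + 1))) (h : σ ≤ s)
    {p z : M} (h2 : 4 * b s p ≤ hi) (h1 : ∀ k, m ≤ k → k ≤ n → a k ^ 2 ≤ b s p / 4)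
    (h3 : del * (s - σ) ≤ b s p / 4) (hz : z ∈ H.B s p (√(b s p) / 200)) :
    b s p / 2 ≤ b σ z ∧ b σ z ≤ 2 * b s p := by
  have hβ := (S.nk n).pos s hs p
  have sp : 0 < √(b s p) := Real.sqrt_pos.2 hβ
  have a1 := S.cl_times hd hβ h2 hmn h1 hσ z s hs h
  have a2 := cl_space (S.nk n) hβ (h1 n hmn le_rfl) h2 A D hd1 hs p z
  rw [div_self hβ.ne'] at a2
  have a3 : 5 / √(b s p) * H.d s p z ≤ 1 / 40 := by
    have : H.d s p z < √(b s p) / 200 := hz
    rw [div_mul_eq_mul_div, div_le_iff₀ sp]; linarith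
  have a4 : del / b s p * (s - σ) ≤ 1 / 4 := by
    rw [div_mul_eq_mul_div, div_le_iff₀ hβ]; linarith
  have a5 := abs_sub_le (cl (b σ z / b s p)) (cl (b s z / b s p)) (cl 1)
  rw [abs_sub_comm] at a1
  have := cl_key (y := b σ z / b s p) (by linarith)
  rw [le_div_iff₀ hβ, div_le_iff₀ hβ] at this
  exact ⟨by linarith [this.1], this.2⟩

omit S in
/-- an integral over a subset of an annulus -/
theorem int_le_an (A : H.Alg) (I : H.Intg) {t l u : ℝ} (ht : t ∈ Ioo 0 H.T) {f g : ℝ → M → ℝ}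
    (hb : H.S0 (b t)) (hf : H.S0 (f t)) (hg : H.S0 (g t)) (h0 : ∀ x, 0 ≤ f t x) {U : Set M}
    (hU : ∀ z ∈ U, l ≤ b t z ∧ b t z ≤ u) (h : ∀ z, l ≤ b t z → b t z ≤ u → f t z ≤ g t z) :
    ∫ z in U, f t z ∂H.vol t ≤ An H b g l u t := by
  refine le_trans (setIntegral_mono_set (t := {x | l ≤ b t x ∧ b t x ≤ u})
    (A.integrable I ht hf).integrableOn (Eventually.of_forall h0)
    (LE.le.eventuallyLE (show U ≤ _ from hU))) ?_
  exact setIntegral_mono_on (A.integrable I ht hf).integrableOn (A.integrable I ht hg).integrableOn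
    (ms_set (A.s0_cont hb) l u) fun z hz => h z hz.1 hz.2

theorem an_const (I : H.Intg) {n : ℕ} {t l u w : ℝ} (ht : t ∈ Icc (tt n) (tt (n + 1))) (hw : 0 ≤ w)
    (hl : a n ^ 2 ≤ l) (hu : u ≤ hi) : An H b (fun _ _ => w) l u t ≤ w * (Cv * u ^ 2) := by
  have := I.fin t ((S.nk n).st.mem ht)
  rw [An, setIntegral_const, smul_eq_mul, mul_comm]
  refine mul_le_mul_of_nonneg_left (le_trans (measureReal_mono ?_) (S.vol n t ht u hu)) hw
  exact fun x hx => ⟨hl.trans hx.1, hx.2⟩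

/-- epsilon regularity applies on the neck -/
theorem er (O : H.Ok) {t0 ε0 cE r0 : ℝ} {Ck : ℕ → ℝ} (R : ER H t0 ε0 cE r0 Ck) (hr : 0 < r0)
    (ht0 : t0 ≤ tt 0) (hd : 0 ≤ del) (hd1 : del ≤ 1 / 50) (he : 64 * del ^ 2 * Cv ≤ ε0)
    (hh : hi ≤ r0 ^ 2) {n : ℕ} {s : ℝ} (hs : s ∈ Icc (tt n) (tt (n + 1))) {p : M}
    (h1 : 4 * a n ^ 2 ≤ b s p) (h2 : 4 * b s p ≤ hi) (k : ℕ) :
    H.Q k s p ≤ Ck k / (√(b s p) / 200) ^ (2 + 2 * k) ∧
      H.Q k s p ≤ Ck k / (√(b s p) / 200) ^ (6 + 2 * k) *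
        ∫ σ in (s - cE * (√(b s p) / 200) ^ 2)..s,
          ∫ z in H.B s p (√(b s p) / 200), H.Q 0 σ z ∂H.vol σ := by
  have hβ := (S.nk n).pos s hs p
  have sp : 0 < √(b s p) := Real.sqrt_pos.2 hβ
  have hm := (S.nk n).st.mem hs
  refine (R k).2 s ⟨ht0.trans ((S.smono.monotone n.zero_le).trans hs.1), hm.2⟩ p _
    (by positivity) ?_ ?_
  · have : √(b s p) ≤ r0 := Real.sqrt_le_iff.2 ⟨hr.le, by linarith⟩
    linarith
  · have a1 := int_le_an O.alg O.int hm (f := H.N 0) (g := fun _ _ => (4 * del / b s p) ^ 2)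
      ((S.nk n).tm.fix O.alg hs) (O.alg.s0_N hm 0) (O.alg.s0_const _) (O.evo.N_nonneg 0 s hm)
      (U := H.B s p (√(b s p) / 200)) (l := b s p / 2) (u := 2 * b s p)
      (fun z hz => S.win O.alg O.dist hd hd1 le_rfl hs hs le_rfl h2
        (fun k p q => by rw [le_antisymm q p]; linarith) (by rw [sub_self, mul_zero]; positivity) hz)
      fun z l u => by
        have b1 := S.sqN_le hd hs (x := z) (by nlinarith [sq_nonneg (a n)]) (by linarith)
        have b2 : 2 * del / b s z ≤ 4 * del / b s p := by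
          rw [div_le_div_iff₀ (by linarith) hβ]; nlinarith
        exact (Real.sqrt_le_left (by positivity)).1 (b1.trans b2)
    have a2 := S.an_const O.int hs (w := (4 * del / b s p) ^ 2) (l := b s p / 2) (u := 2 * b s p)
      (sq_nonneg _) (by nlinarith [sq_nonneg (a n)]) (by linarith)
    refine (a1.trans a2).trans (le_trans (le_of_eq ?_) he)
    field_simp; ring

end Rd

end Crest.Agent.N207.NP

end
end

-- ▼ part N207/NP/Bar
section

/-!
# Row 207, block P (helper85): the pointwise barrier for `|Ric|` along the neck (P1)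
-/

set_option autoImplicit false
set_option linter.dupNamespace false
set_option linter.unusedSectionVars false
open Set MeasureTheory Filter Topology
open scoped ContDiff

noncomputable section

namespace Crest.Agent.N207.NP

variable {M : Type*} [TopologicalSpace M] [CompactSpace M] [MeasurableSpace M] {H : HC M}

/-- `√(|Ric|² + 1)` -/
def ph (H : HC M) (t : ℝ) (x : M) : ℝ := √(H.Q 0 t x + 1)

theorem ph_le (E : H.Evo) {t : ℝ} (ht : t ∈ Ioo 0 H.T) (x : M) : ph H t x ≤ √(H.Q 0 t x) + 1 := by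
  have h := E.Q_nonneg 0 t ht x
  rw [ph, Real.sqrt_le_left (by positivity)]
  nlinarith [Real.sq_sqrt h, Real.sqrt_nonneg (H.Q 0 t x)]

theorem le_ph (t : ℝ) (x : M) : √(H.Q 0 t x) ≤ ph H t x := Real.sqrt_le_sqrt (by linarith)

/-- `ph` is a subsolution with potential `c |Rm|` -/
def PhSub (H : HC M) (c : ℝ) : Prop :=
  ∀ {s0 s1 : ℝ}, H.St s0 s1 → ∃ f', Tm H s0 s1 (ph H) f' ∧
    ∀ t ∈ Icc s0 s1, ∀ x, box H (ph H) f' t x ≤ c * √(H.N 0 t x) * ph H t x

theorem exists_phSub (A : H.Alg) (E : H.Evo) : ∃ c, 1 ≤ c ∧ PhSub H c := by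
  obtain ⟨C, hC, hQ⟩ := E.dt_Q 0
  refine ⟨C + 1, by linarith, fun {s0 s1} hs => ?_⟩
  obtain ⟨Q', hQ1, hQ2⟩ := A.sm_dt hs.2.1 (A.sm_Q 0 hs)
  have T : Tm H s0 s1 (fun t x => H.Q 0 t x + 1) fun t x => Q' t x + 0 :=
    Tm.add A ⟨A.sm_Q 0 hs, hQ2⟩ (Tm.const A 1)
  have hp : ∀ t ∈ Icc s0 s1, ∀ x, H.Q 0 t x + 1 ∈ Ioi (0 : ℝ) := fun t ht x => by
    have := E.Q_nonneg 0 t (hs.mem ht) x
    simp only [mem_Ioi]; linarith
  have e : ph H = fun t x => (H.Q 0 t x + 1) ^ (1 / 2 : ℝ) := by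
    funext t x; rw [ph, Real.sqrt_eq_rpow]
  refine ⟨_, e ▸ T.comp A isOpen_Ioi (cd_rpow (1 / 2)) hp, fun t ht x => ?_⟩
  have hm := hs.mem ht
  have h1 := box_comp A hs ht x isOpen_Ioi (cd_rpow (1 / 2)) hp T
  rw [← e] at h1
  rw [h1, box_add A hs ht x ⟨A.sm_Q 0 hs, hQ2⟩ (Tm.const A 1), box_const A hs ht x,
    A.gam_add t hm (A.s0_Q hm 0) (A.s0_const 1) (T.fix A ht), A.gam_const hm 1 (T.fix A ht),
    A.gam_add' hm (A.s0_Q hm 0) (A.s0_const 1) (A.s0_Q hm 0), A.gam_const' hm 1 (A.s0_Q hm 0),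
    Real.deriv_rpow_const, dd_rpow]
  have h0 : 0 < H.Q 0 t x + 1 := hp t ht x
  have e1 : (H.Q 0 t x + 1) ^ (1 / 2 : ℝ) = ph H t x := by rw [e]
  rw [Real.rpow_sub_one h0.ne', Real.rpow_sub_one h0.ne', Real.rpow_sub_one h0.ne', e1]
  have h2 := (abs_le.1 (hQ hs hQ2 t ht x)).2
  simp only [zero_add, Finset.sum_range_one, Nat.sub_zero] at h2
  have h3 := E.kato_Q 0 t hm x
  have q0 := E.Q_nonneg 0 t hm x
  have q1 := E.Q_nonneg (0 + 1) t hm x
  have h4 : √(H.Q 0 t x) * √(H.Q 0 t x) = H.Q 0 t x := Real.mul_self_sqrt q0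
  have h5 : 0 ≤ ph H t x := Real.sqrt_nonneg _
  have h6 := Real.sqrt_nonneg (H.N 0 t x)
  simp only [box, zero_add] at *
  set q := H.Q 0 t x
  set r := H.Q 1 t x
  set n := √(H.N 0 t x)
  set p := ph H t x / (q + 1) with hp'
  have p0 : 0 ≤ p := div_nonneg h5 h0.le
  have e2 : ph H t x = p * (q + 1) := by rw [hp']; field_simp
  have h7 : Q' t x - H.lap t (H.Q 0 t) x ≤ -2 * r + C * n * q := by
    have : C * (n * √q * √q) = C * n * q := by rw [mul_assoc n, h4]; ring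
    linarith
  have h8 : H.gam t (H.Q 0 t) (H.Q 0 t) x / (q + 1) ≤ 4 * r := by
    rw [div_le_iff₀ h0]; nlinarith
  have e3 : 1 / 2 * ((1 / 2 - 1) * (p / (q + 1))) * (H.gam t (H.Q 0 t) (H.Q 0 t) x + 0 + 0) =
      -(1 / 4) * (p * (H.gam t (H.Q 0 t) (H.Q 0 t) x / (q + 1))) := by ring
  rw [e3, e2]
  have h9 := mul_le_mul_of_nonneg_left h7 p0
  have h10 := mul_le_mul_of_nonneg_left h8 p0
  have h11 : 0 ≤ p * n := mul_nonneg p0 h6
  nlinarith [mul_nonneg h11 q0, mul_nonneg (mul_nonneg h11 q0) hC, mul_nonneg h11 hC]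

/-- the data along the sequence of strips `[tt n, tt (n+1)]`, neck `a n ^ 2 ≤ b ≤ hi` -/
structure Sq (H : HC M) (a tt : ℕ → ℝ) (hi del γ ν K C1 : ℝ) (b : ℝ → M → ℝ)
    (b' : ℕ → ℝ → M → ℝ) : Prop where
  nk : ∀ n, Nk H (tt n) (tt (n + 1)) (a n ^ 2) hi del b (b' n)
  a_pos : ∀ n, 0 < a n
  a_le : ∀ n, a n ≤ K * a (n + 1)
  K_ge : 1 ≤ K
  hi_pos : 0 < hi
  C1_nn : 0 ≤ C1
  del_le : del ≤ 1 / 50
  γ_nn : 0 ≤ γ
  γ_le : γ ≤ 1 / 16
  ν_nn : 0 ≤ ν
  dec : ∀ n, ∀ t ∈ Icc (tt n) (tt (n + 1)), ∀ x, a n ^ 2 ≤ b t x → b t x ≤ hi →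
    √(H.N 0 t x) ≤ ν / b t x * ((a n ^ 2 / b t x) ^ γ + (b t x / hi) ^ γ)
  crude : ∀ n, ∀ t ∈ Icc (tt n) (tt (n + 1)), ∀ x, a n ^ 2 ≤ b t x → b t x ≤ hi →
    √(H.Q 0 t x) ≤ C1 / √(b t x)

/-- memory part of the weight -/
def Zf (a tt : ℕ → ℝ) (γ : ℝ) (b : ℝ → M → ℝ) (n : ℕ) (t : ℝ) (x : M) : ℝ :=
  ∑ m ∈ Finset.range n, (a m ^ 2) ^ γ * pw b (1 / 4) (tt (m + 1)) (-γ) t x

/-- the weight on the `n`-th strip -/
def Wf (a tt : ℕ → ℝ) (hi γ : ℝ) (b : ℝ → M → ℝ) (n : ℕ) (t : ℝ) (x : M) : ℝ :=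
  2 + Zf a tt γ b n t x + (a n ^ 2) ^ γ * pw b 0 0 (-γ) t x - hi ^ (-γ) * pw b 0 0 γ t x

/-- amplitude of the `n`-th block -/
def Am (a : ℕ → ℝ) (K C1 : ℝ) (n : ℕ) : ℝ := C1 * (K * a n) ^ (1 / 2 : ℝ)

/-- the bracket on the `n`-th strip -/
def Gf (a tt : ℕ → ℝ) (K C1 c : ℝ) (b : ℝ → M → ℝ) (n : ℕ) (t : ℝ) (x : M) : ℝ :=
  ∑ m ∈ Finset.range n, Am a K C1 m * pw b (1 / 4) (tt (m + 1)) (-(3 / 4)) t x +
    Am a K C1 n * pw b 0 0 (-(3 / 4)) t x + c

/-- the smallness of the memory of the weight -/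
def Small (a tt : ℕ → ℝ) (γ : ℝ) : Prop :=
  ∀ n, ∑ m ∈ Finset.range (n - 1), (a m ^ 2 / (1 / 4 * (tt n - tt (m + 1)))) ^ γ ≤ 1

namespace Sq

variable {a tt : ℕ → ℝ} {hi del γ ν K C1 : ℝ} {b : ℝ → M → ℝ} {b' : ℕ → ℝ → M → ℝ}
  (S : Sq H a tt hi del γ ν K C1 b b')
include S

theorem smono : StrictMono tt := strictMono_nat_of_lt_succ fun n => (S.nk n).st.2.1

theorem hk {m n : ℕ} (h : m < n) : ∀ t ∈ Icc (tt n) (tt (n + 1)), 0 ≤ 1 / 4 * (t - tt (m + 1)) :=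
  fun t ht => by
    have := S.smono.monotone (show m + 1 ≤ n from h)
    linarith [ht.1]

theorem Am_nn (n : ℕ) : 0 ≤ Am a K C1 n :=
  mul_nonneg S.C1_nn (Real.rpow_nonneg (mul_nonneg (by linarith [S.K_ge]) (S.a_pos n).le) _)

theorem Zf_le (hs : Small a tt γ) (n : ℕ) {t : ℝ} (ht : t ∈ Icc (tt n) (tt (n + 1))) {x : M}
    (l : a n ^ 2 ≤ b t x) : Zf a tt γ b n t x ≤ 1 + (K ^ 2) ^ γ := by
  have hK : 0 ≤ (K ^ 2) ^ γ := Real.rpow_nonneg (sq_nonneg K) γ
  rcases n with _ | n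
  · simp only [Zf, Finset.range_zero, Finset.sum_empty]; linarith
  have hb := (S.nk (n + 1)).pos t ht x
  rw [Zf, Finset.sum_range_succ]
  refine add_le_add (le_trans (Finset.sum_le_sum fun m hm => ?_) (hs (n + 1))) ?_
  · have hm := Finset.mem_range.1 hm
    have h1 := S.smono (show m + 1 < n + 1 by omega)
    refine rpow_mul_le (sq_nonneg _) (by linarith) ?_ S.γ_nn
    simp only [sh]; linarith [ht.1]
  · have h1 := S.a_pos (n + 1)
    refine (rpow_mul_le (sq_nonneg _) (pow_pos h1 2) ?_ S.γ_nn).trans ?_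
    · simp only [sh]; linarith [ht.1]
    · refine Real.rpow_le_rpow (by positivity) ?_ S.γ_nn
      rw [div_le_iff₀ (pow_pos h1 2), ← mul_pow]
      exact pow_le_pow_left₀ (S.a_pos n).le (S.a_le n) 2

variable (A : H.Alg)
include A

theorem wg (hs : Small a tt γ) {c : ℝ} (hc : 0 ≤ c) (hν : c * ν * (4 + (K ^ 2) ^ γ) ≤ 3 * γ)
    (n : ℕ) : ∃ W', Wg H (tt n) (tt (n + 1)) (a n ^ 2) hi (4 + (K ^ 2) ^ γ) b
      (fun t x => c * √(H.N 0 t x)) (Wf a tt hi γ b n) W' := by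
  have hZ := sum_ind (P := Zc H (tt n) (tt (n + 1)) (a n ^ 2) hi (4 * (1 + del) * γ) b)
    (Zc.zero A (S.nk n)) (fun _ _ _ _ => Zc.add A (S.nk n)) _ _ n
    fun m hm => Zc.blk A (S.nk n) (S.hk hm) le_rfl S.del_le S.γ_nn S.γ_le
      (Real.rpow_nonneg (sq_nonneg (a m)) γ)
  have := wg_of A (S.nk n) (V := fun t x => c * √(H.N 0 t x)) (ν := c * ν)
    (CZ := 1 + (K ^ 2) ^ γ) (pow_pos (S.a_pos n) 2)
    S.del_le S.γ_nn S.γ_le hZ (fun t ht x l _ => S.Zf_le hs n ht l) (mul_nonneg hc S.ν_nn)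
    (by linarith) fun t ht x l u => by
      have := mul_le_mul_of_nonneg_left (S.dec n t ht x l u) hc
      rw [mul_div_assoc, mul_assoc]; exact this
  rw [show 3 + (1 + (K ^ 2) ^ γ) = 4 + (K ^ 2) ^ γ by ring] at this
  exact ⟨_, this⟩

theorem gc {n : ℕ} {CW c : ℝ} {V W W' : ℝ → M → ℝ} (hc : 0 ≤ c)
    (G : Wg H (tt n) (tt (n + 1)) (a n ^ 2) hi CW b V W W') :
    ∃ g', Gc H (tt n) (tt (n + 1)) (a n ^ 2) hi b W (Gf a tt K C1 c b n) g' := by
  have h1 := sum_ind (P := Gc H (tt n) (tt (n + 1)) (a n ^ 2) hi b W)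
    (Gc.const A (S.nk n) G le_rfl) (fun _ _ _ _ => Gc.add A (S.nk n) G) _ _ n
    fun m hm => Gc.blk A (S.nk n) G (S.hk hm) le_rfl S.del_le (S.Am_nn m)
  exact ⟨_, Gc.add A (S.nk n) G (Gc.add A (S.nk n) G h1
    (Gc.blk A (S.nk n) G (k0 _ _) (by norm_num) S.del_le (S.Am_nn n))) (Gc.const A (S.nk n) G hc)⟩

omit A in
theorem Gf_ge (c : ℝ) (n : ℕ) {t : ℝ} (ht : t ∈ Icc (tt n) (tt (n + 1))) (x : M) :
    Am a K C1 n * b t x ^ (-(3 / 4) : ℝ) + c ≤ Gf a tt K C1 c b n t x := by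
  have : 0 ≤ ∑ m ∈ Finset.range n, Am a K C1 m * pw b (1 / 4) (tt (m + 1)) (-(3 / 4)) t x :=
    Finset.sum_nonneg fun m hm => mul_nonneg (S.Am_nn m)
      (Real.rpow_nonneg (sh_pos (S.nk n) (S.hk (Finset.mem_range.1 hm)) ht x).le _)
  simp only [Gf, pw, sh0] at *
  linarith

omit A in
theorem near (n : ℕ) {y : ℝ} (hy : 0 < y) (h : y ≤ (K * a n) ^ 2) :
    C1 / √y ≤ Am a K C1 n * y ^ (-(3 / 4) : ℝ) := by
  have hK : 0 ≤ K * a n := mul_nonneg (by linarith [S.K_ge]) (S.a_pos n).le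
  have h1 : y ^ (1 / 4 : ℝ) ≤ (K * a n) ^ (1 / 2 : ℝ) := by
    refine (Real.rpow_le_rpow hy.le h (by norm_num)).trans_eq ?_
    rw [← Real.rpow_natCast, ← Real.rpow_mul hK]; norm_num
  have h2 : (√y)⁻¹ = y ^ (1 / 4 : ℝ) * y ^ (-(3 / 4) : ℝ) := by
    rw [← Real.rpow_add hy, Real.sqrt_eq_rpow, ← Real.rpow_neg hy.le]; norm_num
  rw [div_eq_mul_inv, h2, Am, mul_assoc]
  exact mul_le_mul_of_nonneg_left
    (mul_le_mul_of_nonneg_right h1 (Real.rpow_nonneg hy.le _)) S.C1_nn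

/-- (P1): the barrier -/
theorem p1 (E : H.Evo) (hs : Small a tt γ) {c c0 : ℝ} (hc : 0 ≤ c) (hP : PhSub H c)
    (hν : c * ν * (4 + (K ^ 2) ^ γ) ≤ 3 * γ) (hc0 : 1 + C1 / a 0 + C1 / √hi ≤ c0) (n : ℕ) :
    ∀ t ∈ Icc (tt n) (tt (n + 1)), ∀ x, a n ^ 2 ≤ b t x → b t x ≤ hi →
      ph H t x ≤ Wf a tt hi γ b n t x * Gf a tt K C1 c0 b n t x := by
  have z1 : 0 ≤ C1 / a 0 := div_nonneg S.C1_nn (S.a_pos 0).le
  have z2 : 0 ≤ C1 / √hi := div_nonneg S.C1_nn (Real.sqrt_nonneg _)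
  have key : ∀ n, (∀ x, a n ^ 2 ≤ b (tt n) x → b (tt n) x ≤ hi →
      ph H (tt n) x ≤ Wf a tt hi γ b n (tt n) x * Gf a tt K C1 c0 b n (tt n) x) →
      ∀ t ∈ Icc (tt n) (tt (n + 1)), ∀ x, a n ^ 2 ≤ b t x → b t x ≤ hi →
        ph H t x ≤ Wf a tt hi γ b n t x * Gf a tt K C1 c0 b n t x := fun n h0 => by
    by_cases hle : a n ^ 2 ≤ hi
    swap
    · exact fun t _ x l u => absurd (l.trans u) hle
    obtain ⟨W', G⟩ := S.wg A hs hc hν n
    obtain ⟨g', F⟩ := S.gc A (c := c0) (by linarith) G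
    obtain ⟨f', T, hf⟩ := hP (S.nk n).st
    obtain ⟨L, -, hL⟩ := A.sm_bdd (A.sm_N 0 (S.nk n).st)
    refine bar_step A (S.nk n) G F T (K := c * √L) (fun t ht x _ _ => ?_)
      (fun t ht x _ _ => hf t ht x) h0 fun t ht x h => ?_
    · exact mul_le_mul_of_nonneg_left
        (Real.sqrt_le_sqrt ((le_abs_self _).trans (hL t ht x))) hc
    · have hr : a n ^ 2 ≤ b t x ∧ b t x ≤ hi := by
        rcases h with h | h <;> rw [h]
        exacts [⟨le_rfl, hle⟩, ⟨hle, le_rfl⟩]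
      have h1 := G.one t ht x hr.1 hr.2
      have h2 := S.Gf_ge c0 n ht x
      have h3 := F.nn t ht x
      have h4 := ph_le E ((S.nk n).st.mem ht) x
      have h5 := S.crude n t ht x hr.1 hr.2
      have hb := (S.nk n).pos t ht x
      have h6 : 0 ≤ Am a K C1 n * b t x ^ (-(3 / 4) : ℝ) :=
        mul_nonneg (S.Am_nn n) (Real.rpow_nonneg hb.le _)
      have h7 : ph H t x ≤ Gf a tt K C1 c0 b n t x := by
        rcases h with h | h
        · have := S.near n hb (by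
            rw [h]; exact pow_le_pow_left₀ (S.a_pos n).le
              (le_mul_of_one_le_left (S.a_pos n).le S.K_ge) 2)
          linarith
        · rw [h] at h5; linarith
      nlinarith
  have crude : ∀ n, ∀ x, a n ^ 2 ≤ b (tt n) x → b (tt n) x ≤ hi →
      C1 / √(b (tt n) x) + 1 ≤ Am a K C1 n * b (tt n) x ^ (-(3 / 4) : ℝ) + c0 →
      ph H (tt n) x ≤ Wf a tt hi γ b n (tt n) x * Gf a tt K C1 c0 b n (tt n) x :=
    fun n x l u h => by
      have ht : tt n ∈ Icc (tt n) (tt (n + 1)) := ⟨le_rfl, (S.nk n).st.2.1.le⟩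
      obtain ⟨W', G⟩ := S.wg A hs hc hν n
      have h1 := G.one _ ht x l u
      have h2 := S.Gf_ge c0 n ht x
      have h4 := ph_le E ((S.nk n).st.mem ht) x
      have h5 := S.crude n _ ht x l u
      have h6 : 0 ≤ C1 / √(b (tt n) x) := div_nonneg S.C1_nn (Real.sqrt_nonneg _)
      nlinarith
  induction n with
  | zero =>
    refine key 0 fun x l u => crude 0 x l u ?_
    have hb := (S.nk 0).pos _ ⟨le_rfl, (S.nk 0).st.2.1.le⟩ x
    have h1 : C1 / √(b (tt 0) x) ≤ C1 / a 0 :=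
      div_le_div_of_nonneg_left S.C1_nn (S.a_pos 0) (Real.le_sqrt_of_sq_le l)
    have h6 := mul_nonneg (S.Am_nn 0) (Real.rpow_nonneg hb.le (-(3 / 4) : ℝ))
    linarith
  | succ n ih =>
    refine key (n + 1) fun x l u => ?_
    have ht : tt (n + 1) ∈ Icc (tt n) (tt (n + 1)) := ⟨(S.nk n).st.2.1.le, le_rfl⟩
    have hb := (S.nk n).pos _ ht x
    rcases le_total (a n ^ 2) (b (tt (n + 1)) x) with h | h
    · refine (ih _ ht x h u).trans ?_
      obtain ⟨W', G⟩ := S.wg A hs hc hν n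
      have h1 := G.one _ ht x h u
      have h2 := S.Gf_ge c0 n ht x
      have h3 := mul_nonneg (S.Am_nn n) (Real.rpow_nonneg hb.le (-(3 / 4) : ℝ))
      have h4 := mul_nonneg (S.Am_nn (n + 1)) (Real.rpow_nonneg hb.le (-(3 / 4) : ℝ))
      have h5 := mul_nonneg (Real.rpow_nonneg (sq_nonneg (a (n + 1))) γ)
        (Real.rpow_nonneg hb.le (-γ))
      have e1 : Wf a tt hi γ b n (tt (n + 1)) x ≤ Wf a tt hi γ b (n + 1) (tt (n + 1)) x := by
        simp only [Wf, Zf, Finset.sum_range_succ, pw, sh, sub_self, mul_zero, zero_mul, add_zero]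
        linarith
      have e2 : Gf a tt K C1 c0 b n (tt (n + 1)) x ≤ Gf a tt K C1 c0 b (n + 1) (tt (n + 1)) x := by
        simp only [Gf, Finset.sum_range_succ, pw, sh, sub_self, mul_zero, zero_mul, add_zero]
        linarith
      exact mul_le_mul e1 e2 (by linarith) (by linarith)
    · refine crude (n + 1) x l u ?_
      have := S.near (n + 1) hb (h.trans (pow_le_pow_left₀ (S.a_pos n).le (S.a_le n) 2))
      linarith

end Sq

end Crest.Agent.N207.NP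

end
end

-- ▼ part N207/NP/Sub

/-!
# Row 207, block P (helper85): the subsolution `X ≈ (|Ric| - C mem)₊` on every strip
-/

set_option autoImplicit false
set_option linter.dupNamespace false
set_option linter.unusedSectionVars false
open Set MeasureTheory Filter Topology
open scoped ContDiff

noncomputable section

namespace Crest.Agent.N207.NP

variable {M : Type*} [TopologicalSpace M] [CompactSpace M] [MeasurableSpace M]
  [OpensMeasurableSpace M] {H : HC M}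

theorem memH_ge {a tt : ℕ → ℝ} (h : Monotone tt) (n : ℕ) : 1 ≤ memH a tt n :=
  le_add_of_nonneg_right (Finset.sum_nonneg fun j _ => div_nonneg (Real.sqrt_nonneg _)
    (Real.rpow_nonneg (sub_nonneg.2 (h (by omega))) _))

theorem memH_mono {a tt : ℕ → ℝ} (h : Monotone tt) : Monotone (memH a tt) := fun m n hmn => by
  unfold memH
  refine add_le_add le_rfl (Finset.sum_le_sum_of_subset_of_nonneg
    (Finset.range_mono (by omega)) fun j _ _ => div_nonneg (Real.sqrt_nonneg _)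
    (Real.rpow_nonneg (sub_nonneg.2 (h (by omega))) _))

theorem memH_term {a tt : ℕ → ℝ} (h : Monotone tt) {m n : ℕ} (hm : m + 2 ≤ n) :
    √(a m) / (tt (m + 2) - tt (m + 1)) ^ (3 / 4 : ℝ) ≤ memH a tt n := by
  have := Finset.single_le_sum (s := Finset.range (n - 1))
    (f := fun j => √(a j) / (tt (j + 2) - tt (j + 1)) ^ (3 / 4 : ℝ))
    (fun j _ => div_nonneg (Real.sqrt_nonneg _) (Real.rpow_nonneg (sub_nonneg.2 (h (by omega))) _))
    (Finset.mem_range.2 (show m < n - 1 by omega))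
  unfold memH; linarith

/-- the properties of the subsolution on the `n`-th strip -/
structure Xs (H : HC M) (a tt : ℕ → ℝ) (hi ν C : ℝ) (b : ℝ → M → ℝ) (n : ℕ)
    (X X' : ℝ → M → ℝ) : Prop where
  xc : Xc H (tt n) (tt (n + 1)) (4 * a n ^ 2) (hi / 4) ν b X X'
  le : ∀ t ∈ Icc (tt n) (tt (n + 1)), ∀ x, 4 * a n ^ 2 ≤ b t x → b t x ≤ hi / 4 →
    X t x ^ 2 ≤ H.Q 0 t x
  ge : ∀ t ∈ Icc (tt n) (tt (n + 1)), ∀ x, 4 * a n ^ 2 ≤ b t x → b t x ≤ hi / 4 →
    √(H.Q 0 t x) ≤ X t x + C * memH a tt n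
  bd : ∀ t ∈ Icc (tt n) (tt (n + 1)), ∀ x, 4 * a n ^ 2 ≤ b t x → b t x ≤ hi / 4 →
    X t x ≤ C * √(a n) * b t x ^ (-(3 / 4) : ℝ)
  van : ∀ t ∈ Icc (tt n) (tt (n + 1)), ∀ x, 4 * a n ^ 2 ≤ b t x → b t x ≤ hi / 4 →
    C * √(a n) * b t x ^ (-(3 / 4) : ℝ) ≤ 1 → X t x = 0

namespace Rd

variable {a tt : ℕ → ℝ} {hi del K c Cv : ℝ} {b : ℝ → M → ℝ} {b' : ℕ → ℝ → M → ℝ}
  (S : Rd H a tt hi del K c Cv b b')
include S

theorem sq (hK : 4 ≤ K) (hd : 0 ≤ del) (hd1 : del ≤ 1 / 50) {C1 : ℝ} (hC : 0 ≤ C1)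
    (hcr : ∀ n, ∀ t ∈ Icc (tt n) (tt (n + 1)), ∀ x, 4 * a n ^ 2 ≤ b t x → 4 * b t x ≤ hi →
      √(H.Q 0 t x) ≤ C1 / √(b t x)) :
    Sq H (fun n => 2 * a n) tt (hi / 4) del (1 / 16) del K C1 b b' where
  nk n := (S.nk n).mono (by nlinarith [sq_nonneg (a n)]) (by linarith [S.hi_pos]) le_rfl
  a_pos n := by linarith [S.ap hK n]
  a_le n := by rw [S.a_succ hK n]; linarith
  K_ge := by linarith
  hi_pos := by linarith [S.hi_pos]
  C1_nn := hC
  del_le := hd1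
  γ_nn := by norm_num
  γ_le := le_rfl
  ν_nn := hd
  dec n t ht x l u := by
    have hb := (S.nk n).pos t ht x
    have hh := S.hi_pos
    refine (S.dec n t ht x (by nlinarith [sq_nonneg (a n)]) (by linarith)).trans
      (mul_le_mul_of_nonneg_left (add_le_add ?_ ?_) (div_nonneg hd hb.le))
    · exact Real.rpow_le_rpow (by positivity)
        (div_le_div_of_nonneg_right (by nlinarith [sq_nonneg (a n)]) hb.le) (by norm_num)
    · exact Real.rpow_le_rpow (by positivity)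
        (div_le_div_of_nonneg_left hb.le (by linarith) (by linarith)) (by norm_num)
  crude n t ht x l u := hcr n t ht x (by linarith) (by linarith)

theorem Gf_le (hK : 4 ≤ K) {C1 : ℝ} (hC : 0 ≤ C1) (c0 : ℝ) (n : ℕ) {t : ℝ}
    (ht : t ∈ Icc (tt n) (tt (n + 1))) (x : M) :
    Gf (fun n => 2 * a n) tt K C1 c0 b n t x ≤ 4 * (C1 * √(2 * K)) * (memH a tt n - 1) +
      (1 + √K) * (C1 * √(2 * K)) * √(a n) * b t x ^ (-(3 / 4) : ℝ) + c0 := by
  have hb := (S.nk n).pos t ht x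
  have eA : ∀ m, Am (fun n => 2 * a n) K C1 m = C1 * √(2 * K) * √(a m) := fun m => by
    rw [Am, ← Real.sqrt_eq_rpow, mul_assoc, ← Real.sqrt_mul (by linarith)]; congr 2; ring
  have p0 : 0 ≤ C1 * √(2 * K) := mul_nonneg hC (Real.sqrt_nonneg _)
  have p1 := Real.rpow_nonneg hb.le (-(3 / 4) : ℝ)
  simp only [Gf, eA, memH, add_sub_cancel_left]
  rw [pw, sh0]
  rcases n with _ | n
  · have := mul_nonneg (mul_nonneg (mul_nonneg (Real.sqrt_nonneg K) p0) (Real.sqrt_nonneg (a 0))) p1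
    simp only [Finset.range_zero, Finset.sum_empty, Nat.zero_sub]
    nlinarith
  rw [Finset.sum_range_succ, Nat.add_sub_cancel, Finset.mul_sum]
  have a1 : ∑ m ∈ Finset.range n, C1 * √(2 * K) * √(a m) * pw b (1 / 4) (tt (m + 1)) (-(3 / 4)) t x ≤
      ∑ m ∈ Finset.range n,
        4 * (C1 * √(2 * K)) * (√(a m) / (tt (m + 2) - tt (m + 1)) ^ (3 / 4 : ℝ)) := by
    refine Finset.sum_le_sum fun m hm => ?_
    have hm := Finset.mem_range.1 hm
    have d0 : 0 < tt (m + 2) - tt (m + 1) := sub_pos.2 (S.smono (by omega))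
    have d1 := S.smono.monotone (show m + 2 ≤ n + 1 by omega)
    have b1 : pw b (1 / 4) (tt (m + 1)) (-(3 / 4)) t x ≤
        ((tt (m + 2) - tt (m + 1)) / 4) ^ (-(3 / 4) : ℝ) :=
      Real.rpow_le_rpow_of_nonpos (by linarith) (by simp only [sh]; linarith [ht.1]) (by norm_num)
    have b2 : (4 : ℝ) ^ (3 / 4 : ℝ) ≤ 4 := by
      simpa using Real.rpow_le_rpow_of_exponent_le (x := 4) (y := 3 / 4) (z := 1) (by norm_num)
        (by norm_num)
    rw [Real.rpow_neg (by linarith), Real.div_rpow d0.le (by norm_num), inv_div] at b1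
    have b3 := b1.trans (div_le_div_of_nonneg_right b2 (Real.rpow_nonneg d0.le _))
    refine (mul_le_mul_of_nonneg_left b3 (mul_nonneg p0 (Real.sqrt_nonneg _))).trans_eq ?_
    ring
  have a2 : pw b (1 / 4) (tt (n + 1)) (-(3 / 4)) t x ≤ b t x ^ (-(3 / 4) : ℝ) :=
    Real.rpow_le_rpow_of_nonpos hb (by simp only [sh]; linarith [ht.1]) (by norm_num)
  have a3 : √(a n) = √K * √(a (n + 1)) := by
    rw [S.a_succ hK n, Real.sqrt_mul (by linarith)]
  have a4 := mul_le_mul_of_nonneg_left a2 (mul_nonneg p0 (Real.sqrt_nonneg (a n)))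
  rw [a3] at a4 ⊢
  nlinarith

theorem sub (O : H.Ok) (hK : 4 ≤ K) (hd : 0 ≤ del) (hd1 : del ≤ 1 / 50) {C1 cc : ℝ} (hC : 0 ≤ C1)
    (hcr : ∀ n, ∀ t ∈ Icc (tt n) (tt (n + 1)), ∀ x, 4 * a n ^ 2 ≤ b t x → 4 * b t x ≤ hi →
      √(H.Q 0 t x) ≤ C1 / √(b t x)) (hcc : 1 ≤ cc) (hP : PhSub H cc)
    (hν : cc * del * (4 + (K ^ 2) ^ (1 / 16 : ℝ)) ≤ 3 * (1 / 16))
    (hs : Small (fun n => 2 * a n) tt (1 / 16)) :
    ∃ C, 1 ≤ C ∧ ∀ n, ∃ X X', Xs H a tt hi ((2 * cc + 8) * del) C b n X X' := by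
  have A := O.alg
  have Z := S.sq hK hd hd1 hC hcr
  set c0 := 1 + C1 / (2 * a 0) + C1 / √(hi / 4) with hc0
  set CW := 4 + (K ^ 2) ^ (1 / 16 : ℝ) with hCW
  set E := C1 * √(2 * K) with hE
  have E0 : 0 ≤ E := mul_nonneg hC (Real.sqrt_nonneg _)
  have c1 : 1 ≤ c0 := by
    have := div_nonneg hC (show 0 ≤ 2 * a 0 by linarith [S.a_pos])
    have := div_nonneg hC (Real.sqrt_nonneg (hi / 4))
    linarith
  have W1 : 1 ≤ CW := by have := Real.rpow_nonneg (sq_nonneg K) (1 / 16 : ℝ); linarith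
  set C2 := c0 + 2 + 4 * E + (1 + √K) * E with hC2
  have sK := Real.sqrt_nonneg K
  have E1 : 0 ≤ (1 + √K) * E := by positivity
  have C22 : 2 ≤ C2 := by linarith
  refine ⟨CW * C2, by nlinarith, fun n => ?_⟩
  obtain ⟨W', G⟩ := Z.wg A hs (by linarith) hν n
  obtain ⟨f', T, hf⟩ := hP (S.nk n).st
  have m1 := memH_ge (a := a) S.smono.monotone n
  have β2 : 2 ≤ C2 * memH a tt n := by nlinarith
  obtain ⟨X', TX, hX⟩ := sub_Gp A (S.nk n).st G T (β := C2 * memH a tt n) (by linarith)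
    (fun t _ x => mul_nonneg (by linarith) (Real.sqrt_nonneg _)) hf
  have e4 : (2 * a n) ^ 2 = 4 * a n ^ 2 := by ring
  simp only [e4] at G hX
  have P := Z.p1 A O.evo hs (by linarith) hP hν (c0 := c0) le_rfl n
  simp only [e4] at P
  have key : ∀ t ∈ Icc (tt n) (tt (n + 1)), ∀ x, 4 * a n ^ 2 ≤ b t x → b t x ≤ hi / 4 →
      ph H t x - C2 * memH a tt n * Wf (fun n => 2 * a n) tt (hi / 4) (1 / 16) b n t x + 1 ≤
        Wf (fun n => 2 * a n) tt (hi / 4) (1 / 16) b n t x *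
          (C2 * √(a n) * b t x ^ (-(3 / 4) : ℝ) - 1) := fun t ht x l u => by
    have a1 := P t ht x l u
    have a2 := S.Gf_le hK hC c0 n ht x
    have a3 := G.one t ht x l u
    have a4 := mul_nonneg (Real.sqrt_nonneg (a n))
      (Real.rpow_nonneg ((S.nk n).pos t ht x).le (-(3 / 4) : ℝ))
    rw [← hE] at a2
    have a5 : Gf (fun n => 2 * a n) tt K C1 c0 b n t x ≤
        C2 * memH a tt n + C2 * √(a n) * b t x ^ (-(3 / 4) : ℝ) - 2 := by
      have b1 : (1 + √K) * E * (√(a n) * b t x ^ (-(3 / 4) : ℝ)) ≤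
          C2 * (√(a n) * b t x ^ (-(3 / 4) : ℝ)) := mul_le_mul_of_nonneg_right (by linarith) a4
      have b2 : 4 * E * (memH a tt n - 1) ≤ C2 * (memH a tt n - 1) :=
        mul_le_mul_of_nonneg_right (by linarith) (by linarith)
      nlinarith
    nlinarith [mul_le_mul_of_nonneg_left a5 (show 0 ≤ Wf (fun n => 2 * a n) tt (hi / 4) (1 / 16) b n t x
      by linarith)]
  refine ⟨_, X', ⟨TX, fun t _ x => Gp_nonneg _, fun t ht x l u => ?_, fun t ht x l u => ?_⟩,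
    fun t ht x l u => ?_, fun t ht x l u => ?_, fun t ht x l u => ?_, fun t ht x l u h => ?_⟩
  · refine (hX t ht x l u).trans (mul_le_mul_of_nonneg_right ?_ (Gp_nonneg _))
    have hb := (S.nk n).pos t ht x
    have a1 := S.sqN_le hd ht (x := x) (by nlinarith [sq_nonneg (a n)]) (by linarith [S.hi_pos])
    refine (mul_le_mul_of_nonneg_left a1 (by linarith)).trans ?_
    rw [← mul_div_assoc]
    exact div_le_div_of_nonneg_right (by nlinarith) hb.le
  · have hb := (S.nk n).pos t ht x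
    have hm := (S.nk n).st.mem ht
    have a1 := S.sqN_le hd ht (x := x) (by nlinarith [sq_nonneg (a n)]) (by linarith [S.hi_pos])
    have a2 : |H.R t x| ≤ 4 * √(H.N 0 t x) := by
      refine abs_le_of_sq_le_sq' ?_ (by positivity) |> abs_le.2
      rw [mul_pow, Real.sq_sqrt (O.evo.N_nonneg 0 t hm x)]
      linarith [O.evo.R_sq t hm x, O.evo.Q_le 0 t hm x]
    refine (a2.trans (mul_le_mul_of_nonneg_left a1 (by norm_num))).trans ?_
    rw [← mul_div_assoc]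
    exact div_le_div_of_nonneg_right (by nlinarith) hb.le
  · have hm := (S.nk n).st.mem ht
    rw [← Real.le_sqrt (Gp_nonneg _) (O.evo.Q_nonneg 0 t hm x)]
    refine Gp_le' (Real.sqrt_nonneg _) ?_
    nlinarith [ph_le O.evo hm x, G.one t ht x l u]
  · have a1 := le_Gp (ph H t x - C2 * memH a tt n *
      Wf (fun n => 2 * a n) tt (hi / 4) (1 / 16) b n t x)
    have a2 := mul_le_mul_of_nonneg_left (G.le t ht x l u) (show 0 ≤ C2 * memH a tt n by linarith)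
    linarith [le_ph (H := H) t x]
  · have a4 : 0 ≤ C2 * √(a n) * b t x ^ (-(3 / 4) : ℝ) := mul_nonneg (by positivity)
      (Real.rpow_nonneg ((S.nk n).pos t ht x).le _)
    have a5 := mul_le_mul_of_nonneg_right (G.le t ht x l u) a4
    refine Gp_le' (by nlinarith) ((key t ht x l u).trans ?_)
    nlinarith [G.one t ht x l u]
  · have a4 : 0 ≤ C2 * √(a n) * b t x ^ (-(3 / 4) : ℝ) := mul_nonneg (by positivity)
      (Real.rpow_nonneg ((S.nk n).pos t ht x).le _)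
    have a5 : C2 * √(a n) * b t x ^ (-(3 / 4) : ℝ) ≤ 1 := by nlinarith
    refine Gp_zero ?_
    nlinarith [key t ht x l u, G.one t ht x l u]

end Rd

end Crest.Agent.N207.NP

end
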